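import Vale.Agent.P155.EX.Same

/-!
# P155, stage 2, block EX1: `SAMEP` from `PIN` and `BDT`
-/

open Set Topology Metric Filter

namespace Vale.Agent.P155.EX

open Vale.Agent.P155 Vale.Agent.P155.Q1

/-- pinches at a smaller scale are pinches -/
theorem Pinch.mono {Ω : Set ℂ} {S : TempApprox Ω} {n : ℕ} {ω : Conf} {ρ η η' : ℝ} {v : Pt} {i : ℕ}
    (h : Pinch S n ω ρ η v i) (hη : η ≤ η') : Pinch S n ω ρ η' v i :=
  ⟨h.1, h.2.1.trans hη, h.2.2.1, h.2.2.2⟩

theorem samep_of (hPIN : PIN) (hBDT : BDT) {Ω : Set ℂ} (ho : IsOpen Ω)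
    (hb : Bornology.IsBounded Ω) (hne : Ω.Nonempty) (hsc : SimplyConnectedSpace Ω)
    (S : TempApprox Ω) : SAMEP Ω S := by
  intro k z z' _ _ s ε hs hε
  obtain ⟨κ, hκ, hB⟩ := hBDT Ω ho hb hne hsc S (s / 2) (by positivity) (ε / 3) (by positivity)
  obtain ⟨η, hη, hP⟩ := hPIN Ω ho hb hne hsc S κ (s / 8) hκ (by positivity) (ε / 3) (by positivity)
  set η0 : ℝ := min (η / 4) (s / 16) with hη0
  have hη0p : 0 < η0 := lt_min (by positivity) (by positivity)
  have e1 : 4 * η0 ≤ η := by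
    have := min_le_left (η / 4) (s / 16)
    linarith
  have e2 : 16 * η0 ≤ s := by
    have := min_le_right (η / 4) (s / 16)
    linarith
  refine ⟨η0 / 4, by positivity, ?_⟩
  have hmesh : ∀ᶠ n in atTop, 4 * S.δ n < η0 := by
    have h1 : Tendsto (fun n => 4 * S.δ n) atTop (𝓝 (4 * 0)) := S.mesh.const_mul 4
    rw [mul_zero] at h1
    exact h1.eventually (gt_mem_nhds hη0p)
  filter_upwards [hB, hP, hmesh] with n h1 h2 h3
  refine lt_of_le_of_lt ((E.Pr_mono (q := fun ω => (∃ v, ω.1 v ≠ ω.2 v ∧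
      Metric.infDist (Q1.pt (S.δ n) (S.a n) v) (frontier Ω) ≤ κ ∧
      ∃ x ∈ comp ω v, ∃ y ∈ comp ω v,
        s / 2 ≤ dist (Q1.pt (S.δ n) (S.a n) x) (Q1.pt (S.δ n) (S.a n) y)) ∨
      (∃ v i, ω.1 v ≠ ω.2 v ∧
      (∀ u ∈ comp ω v, κ < Metric.infDist (Q1.pt (S.δ n) (S.a n) u) (frontier Ω)) ∧
      Pinch S n ω (s / 8) η v i)) ?_).trans (E.Pr_or_le _ _ _)) (by linarith)
  rintro ω hω ⟨hz, hz', hbt, A, hA, hlev, hzA, hzA'⟩
  by_contra hcon
  push Not at hcon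
  obtain ⟨c1, c2⟩ := hcon
  obtain ⟨v, hv, rfl⟩ := hA
  have hL := comp_mem_Loops hv
  have hδ := S.pos n
  have hfz : ∀ u ∈ comp ω v, s ≤ dist z (Q1.pt (S.δ n) (S.a n) u) := by
    intro u hu
    have := vert_gasket (T := S.T n) (a := S.a n) hδ hω hL hu
    rw [hlev] at this
    exact hz.trans (infDist_le_dist_of_mem this)
  obtain ⟨x, hx, y, hy, hxy⟩ := exists_far_pair hδ hω hL hzA hfz (by linarith)
  have hnp : ∀ u ∈ comp ω v, ∀ i, ¬ Pinch S n ω (s / 8) (4 * η0) u i := by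
    intro u hu i hpin
    have hcu : comp ω u = comp ω v := P155.L.comp_eq_of_mem hω hu
    have hune : ω.1 u ≠ ω.2 u := P155.L.ne_of_mem_comp hω hv hu
    refine c2 u i hune (fun w hw => ?_) (hpin.mono e1)
    rw [hcu] at hw
    have hcw : comp ω w = comp ω v := P155.L.comp_eq_of_mem hω hw
    have hwne : ω.1 w ≠ ω.2 w := P155.L.ne_of_mem_comp hω hv hw
    by_contra hlt
    push Not at hlt
    have := c1 w hwne hlt x (by rw [hcw]; exact hx) y (by rw [hcw]; exact hy)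
    linarith
  have := bott_ge hω hv (by omega) hlev (s := s) hnp h3 e2 (by linarith) hzA hzA' hz hz'
  linarith

end Vale.Agent.P155.EX
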