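import Vale.Agent.P155.EX.Light
import Vale.Agent.P155.EX.SameP
import Vale.Agent.P155.H878.Det
import Vale.Agent.P155.H878.M1

/-!
# P155, existence of nested CLE₄: the holes of the limit are Jordan domains

`hole_jordan`: for a good sequence without pinches and without boundary touching, the boundary of
every hole of the limit gaskets is the trace of an injective loop inside the domain.
-/

namespace Vale.Agent.P155.EX

open Topology Filter MeasureTheory TopologicalSpace Vale.Agent.P155 Vale.Agent.P155.Q1 LatCycle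

variable {Ω : Set ℂ} {S : TempApprox Ω} {n : ℕ → ℕ} {ω : ℕ → Conf} {G : ℕ → NonemptyCompacts ℂ}

/-- the loops around a point of a hole have a macroscopic diameter -/
theorem far_pair_ev (hg : Good Ω S n ω G) {k : ℕ} {z : ℂ}
    (hz : z ∈ Ω \ (G k : Set ℂ)) :
    ∃ r : ℝ, 0 < r ∧ ∀ᶠ j in atTop, ∀ v, (ω j).1 v ≠ (ω j).2 v →
      level (ω j) (comp (ω j) v) = k →
      surrZ (S.δ (n j)) (S.a (n j)) (ω j) (comp (ω j) v) z →
      ∃ x ∈ comp (ω j) v, ∃ y ∈ comp (ω j) v,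
        r ≤ dist (pt (S.δ (n j)) (S.a (n j)) x) (pt (S.δ (n j)) (S.a (n j)) y) := by
  set s := Metric.infDist z (G k : Set ℂ) with hs
  have hs0 : 0 < s := ((G k).isCompact.isClosed.notMem_iff_infDist_pos (G k).nonempty).1 hz.2
  refine ⟨s / 2 / 2, by positivity, ?_⟩
  filter_upwards [hg.infDist_le (half_pos hs0) k,
    hg.delta_lt (show 0 < s / 8 by positivity)] with j h1 h2 v hv hl hsz
  have hω := hg.mem j
  have h3 := (abs_le.1 (h1 z)).2
  have hfar : ∀ u ∈ comp (ω j) v, s / 2 ≤ dist z (pt (S.δ (n j)) (S.a (n j)) u) := by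
    intro u hu
    have hm := vert_gasket (T := S.T (n j)) (S.pos (n j)) (a := S.a (n j)) hω
      (comp_mem_Loops hv) hu
    rw [hl] at hm
    have h4 := Metric.infDist_le_dist_of_mem (x := z) hm
    linarith
  exact exists_far_pair (S.pos (n j)) hω (comp_mem_Loops hv) hsz hfar (by linarith)

/-- **No pinch in the limit curve.** -/
theorem Conv.no_pinch (hg : Good Ω S n ω G)
    (hpin : ∀ κ ρ : ℝ, 0 < κ → 0 < ρ → ∃ η : ℝ, 0 < η ∧ ∀ᶠ j in atTop, ∀ v i,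
      (ω j).1 v ≠ (ω j).2 v →
      (∀ u ∈ comp (ω j) v,
        κ < Metric.infDist (pt (S.δ (n j)) (S.a (n j)) u) (frontier Ω)) →
      ¬ Pinch S (n j) (ω j) ρ η v i) {v : ℕ → Pt} {γ : PL} {θ : ℕ → ℝ → ℝ}
    (h : Conv S n ω v γ θ) (hv : ∀ j, (ω j).1 (v j) ≠ (ω j).2 (v j))
    (hdeep : DeepL S n ω v) {s t : ℝ} (_hst : s ≤ t) (_hts : t < s + 1)
    (heq : γ.c (s : S1) = γ.c (t : S1)) :
    (∀ x ∈ Set.Icc s t, γ.c (x : S1) = γ.c (s : S1)) ∨
      (∀ x ∈ Set.Icc t (s + 1), γ.c (x : S1) = γ.c (s : S1)) := by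
  by_contra hcon
  push Not at hcon
  obtain ⟨⟨x, hx, hxne⟩, y, hy, hyne⟩ := hcon
  set d := min (dist (γ.c (x : S1)) (γ.c (s : S1))) (dist (γ.c (y : S1)) (γ.c (s : S1))) with hd
  have hd0 : 0 < d := lt_min (dist_pos.2 hxne) (dist_pos.2 hyne)
  have hdx : d ≤ dist (γ.c (x : S1)) (γ.c (s : S1)) := min_le_left _ _
  have hdy : d ≤ dist (γ.c (y : S1)) (γ.c (s : S1)) := min_le_right _ _
  obtain ⟨κ, hκ, hdeep⟩ := hdeep
  obtain ⟨η, hη, hpin⟩ := hpin κ (d / 2) hκ (by positivity)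
  set ε := min (η / 2) (d / 4) with hε
  have hε0 : 0 < ε := lt_min (by positivity) (by positivity)
  have hε1 : ε ≤ η / 2 := min_le_left _ _
  have hε2 : ε ≤ d / 4 := min_le_right _ _
  obtain ⟨j, hj1, hj2, hj3⟩ := ((h.near hg hv hε0).and (hdeep.and hpin)).exists
  have hω := hg.mem j
  have hvV := mem_V_of_loop hω (hv j)
  set N := (comp (ω j) (v j)).ncard with hN
  have hN0 : 0 < N := ncard_pos hω hvV
  obtain ⟨xs, hxs⟩ := h.surj j s
  obtain ⟨xt, hxt⟩ := h.surj j t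
  obtain ⟨xx, hxx⟩ := h.surj j x
  obtain ⟨xy, hxy⟩ := h.surj j y
  have hperN : θ j (xs + N) = s + 1 := by
    rw [← hxs]
    exact h.per j xs
  have o1 : xs ≤ xx := by rw [← (h.mono j).le_iff_le, hxs, hxx]; exact hx.1
  have o2 : xx ≤ xt := by rw [← (h.mono j).le_iff_le, hxx, hxt]; exact hx.2
  have o3 : xt ≤ xy := by rw [← (h.mono j).le_iff_le, hxt, hxy]; exact hy.1
  have o4 : xy ≤ xs + N := by rw [← (h.mono j).le_iff_le, hxy, hperN]; exact hy.2
  set i := ⌊xs⌋ with hi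
  set i' := ⌊xt⌋ with hi'
  have f1 : i ≤ ⌊xx⌋ := Int.floor_le_floor o1
  have f2 : ⌊xx⌋ ≤ i' := Int.floor_le_floor o2
  have f3 : i' ≤ ⌊xy⌋ := Int.floor_le_floor o3
  have f4 : ⌊xy⌋ ≤ i + N := by
    have e : ⌊xs + N⌋ = i + N := Int.floor_add_natCast _ _
    rw [← e]
    exact Int.floor_le_floor o4
  obtain ⟨m, hm⟩ := Int.le.dest (f1.trans f2)
  obtain ⟨l, hl⟩ := Int.le.dest f1
  obtain ⟨l', hl'⟩ := Int.le.dest f3
  have hmN : m ≤ N := by
    have : (m : ℤ) ≤ N := by omega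
    exact_mod_cast this
  have hlm : l ≤ m := by omega
  have hlm' : l' ≤ N - m := by omega
  set w := cycP (ω j) (v j) i with hw
  have hwc : w ∈ comp (ω j) (v j) := cycP_comp _ _ i
  have hcw : comp (ω j) w = comp (ω j) (v j) := P155.L.comp_eq_of_mem hω hwc
  have hwne : (ω j).1 w ≠ (ω j).2 w := P155.L.ne_of_mem_comp hω (hv j) hwc
  have es : (SW.suc (ω j))^[m] w = cycP (ω j) (v j) i' := by
    rw [hw, ← cycP_add hω hvV, hm]
  have el : (SW.suc (ω j))^[l] w = cycP (ω j) (v j) ⌊xx⌋ := by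
    rw [hw, ← cycP_add hω hvV, hl]
  have el' : (SW.suc (ω j))^[l'] ((SW.suc (ω j))^[m] w) = cycP (ω j) (v j) ⌊xy⌋ := by
    rw [es, ← cycP_add hω hvV, hl']
  have hlast : (SW.suc (ω j))^[N - m] ((SW.suc (ω j))^[m] w) = w := by
    rw [← Function.iterate_add_apply, Nat.sub_add_cancel hmN, hw, ← cycP_add hω hvV, hN, cycP_per]
  have ds := hj1 xs
  have dt := hj1 xt
  have dx := hj1 xx
  have dy := hj1 xy
  rw [hxs] at ds
  rw [hxt] at dt
  rw [hxx] at dx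
  rw [hxy] at dy
  rw [dist_comm] at dx dy
  refine hj3 w m hwne (fun u hu => hj2 u (by rwa [hcw] at hu)) ⟨by rw [hcw]; exact hmN, ?_, ?_, ?_⟩
  · rw [es]
    have h3 := dist_triangle4 (pt (S.δ (n j)) (S.a (n j)) w) (γ.c (s : S1)) (γ.c (t : S1))
      (pt (S.δ (n j)) (S.a (n j)) (cycP (ω j) (v j) i'))
    rw [heq, dist_self, dist_comm (γ.c (t : S1))] at h3
    rw [heq] at ds
    linarith
  · refine ⟨l, hlm, 0, Nat.zero_le _, ?_⟩
    rw [el, Function.iterate_zero, id_eq]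
    have h3 := dist_triangle4 (γ.c (x : S1)) (pt (S.δ (n j)) (S.a (n j)) (cycP (ω j) (v j) ⌊xx⌋))
      (pt (S.δ (n j)) (S.a (n j)) w) (γ.c (s : S1))
    linarith
  · rw [hcw]
    refine ⟨l', hlm', N - m, le_rfl, ?_⟩
    rw [el', hlast]
    have h3 := dist_triangle4 (γ.c (y : S1)) (pt (S.δ (n j)) (S.a (n j)) (cycP (ω j) (v j) ⌊xy⌋))
      (pt (S.δ (n j)) (S.a (n j)) w) (γ.c (s : S1))
    linarith

/-- **The holes of the limit are Jordan domains inside `Ω`.** -/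
theorem hole_jordan (h : Pre Ω S n ω G) {k : ℕ} (hk : 1 ≤ k) {z : ℂ}
    (hz : z ∈ Ω \ (G k : Set ℂ)) :
    frontier (connectedComponentIn (Ω \ (G k : Set ℂ)) z) ⊆ Ω ∧
      ∃ J : PL, IsJordan J (frontier (connectedComponentIn (Ω \ (G k : Set ℂ)) z)) := by
  classical
  have hg := h.good
  set U := connectedComponentIn (Ω \ (G k : Set ℂ)) z with hU
  obtain ⟨r, hr, hfar⟩ := far_pair_ev hg hz
  obtain ⟨η, hη, hbdt⟩ := h.bdt r hr
  obtain ⟨M, hM⟩ := eventually_atTop.1 ((exi Ω S n ω G hg k hk z hz).and (hfar.and hbdt))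
  -- the shifted sequence
  have hφ0 : Tendsto (fun j => M + j) atTop atTop := tendsto_atTop_mono (fun j => by
    show j ≤ M + j
    omega) tendsto_id
  have hg0 := hg.sub hφ0
  have hex : ∀ j, ∃ v, (ω (M + j)).1 v ≠ (ω (M + j)).2 v ∧
      level (ω (M + j)) (comp (ω (M + j)) v) = k ∧
      surrZ (S.δ (n (M + j))) (S.a (n (M + j))) (ω (M + j)) (comp (ω (M + j)) v) z := fun j =>
    (hM (M + j) (by omega)).1
  choose v hv hl hs using hex
  have hd0 : DeepL S (n ∘ fun j => M + j) (ω ∘ fun j => M + j) v := by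
    refine ⟨η, hη, Eventually.of_forall fun j u hu => ?_⟩
    have h1 := (hM (M + j) (by omega)).2.1 (v j) (hv j) (hl j) (hs j)
    have hω := hg.mem (M + j)
    have hcu : comp (ω (M + j)) u = comp (ω (M + j)) (v j) := P155.L.comp_eq_of_mem hω hu
    exact (hM (M + j) (by omega)).2.2 u (P155.L.ne_of_mem_comp hω (hv j) hu) (by
      rw [hcu]
      exact h1)
  obtain ⟨φ, hφ, γ, θ, hconv⟩ := TC.cpt cnt Ω S _ _ G hg0 v hv hd0
  have hg1 := hg0.sub hφ.tendsto_atTop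
  have hv1 : ∀ j, (((ω ∘ fun j => M + j) ∘ φ) j).1 ((v ∘ φ) j) ≠
      (((ω ∘ fun j => M + j) ∘ φ) j).2 ((v ∘ φ) j) := fun j => hv (φ j)
  have hl1 : ∀ j, level (((ω ∘ fun j => M + j) ∘ φ) j)
      (comp (((ω ∘ fun j => M + j) ∘ φ) j) ((v ∘ φ) j)) = k := fun j => hl (φ j)
  have hd1 : DeepL S ((n ∘ fun j => M + j) ∘ φ) ((ω ∘ fun j => M + j) ∘ φ) (v ∘ φ) := by
    obtain ⟨η', hη', h1⟩ := hd0
    exact ⟨η', hη', hφ.tendsto_atTop.eventually h1⟩
  have hr1 : Set.range γ.c = frontier U := hconv.range_eq hg1 hv1 hd1 hk hl1 hz (fun j => hs (φ j))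
  have hUΩ : U ⊆ Ω := (connectedComponentIn_subset _ _).trans fun w hw => hw.1
  constructor
  · -- inside
    intro y hy
    have hyc : y ∈ closure Ω := closure_mono hUΩ (frontier_subset_closure hy)
    by_contra hyΩ
    have hyf : y ∈ frontier Ω := by
      rw [hg.opn.frontier_eq]
      exact ⟨hyc, hyΩ⟩
    rw [← hr1] at hy
    obtain ⟨τ, hτ⟩ := hy
    obtain ⟨τ, rfl⟩ := QuotientAddGroup.mk_surjective τ
    obtain ⟨η', hη', h1⟩ := hd1
    obtain ⟨j, h2, h3⟩ := ((hconv.near hg1 hv1 hη').and h1).exists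
    obtain ⟨x, hx⟩ := hconv.surj j τ
    have h4 := h2 x
    rw [hx] at h4
    have h5 := h3 _ (cycP_comp _ _ ⌊x⌋)
    have h6 := Metric.infDist_le_dist_of_mem (x := pt (S.δ (((n ∘ fun j => M + j) ∘ φ) j))
      (S.a (((n ∘ fun j => M + j) ∘ φ) j)) (cycP (((ω ∘ fun j => M + j) ∘ φ) j) ((v ∘ φ) j) ⌊x⌋)) hyf
    rw [← hτ] at h6
    have h7 : dist (pt (S.δ (((n ∘ fun j => M + j) ∘ φ) j)) (S.a (((n ∘ fun j => M + j) ∘ φ) j))
      (cycP (((ω ∘ fun j => M + j) ∘ φ) j) ((v ∘ φ) j) ⌊x⌋)) (γ.c (QuotientAddGroup.mk τ : S1)) ≤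
        η' := h4
    linarith
  · -- Jordan
    have hdiam : 0 < γ.diam := by
      obtain ⟨j, hj⟩ := (hconv.vert (show 0 < r / 4 by positivity)).exists
      have hω := hg1.mem j
      have hvV := mem_V_of_loop hω (hv1 j)
      obtain ⟨x, hx, y, hy, hxy⟩ := (hM (M + φ j) (by omega)).2.1 (v (φ j)) (hv (φ j)) (hl (φ j))
        (hs (φ j))
      obtain ⟨i, hi⟩ := exists_cycP hω hvV hx
      obtain ⟨i', hi'⟩ := exists_cycP hω hvV hy
      have h1 := hj i
      have h2 := hj i'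
      rw [hi] at h1
      rw [hi'] at h2
      have h3 := dist_triangle4 (pt (S.δ (n (M + φ j))) (S.a (n (M + φ j))) x)
        (γ.c (θ j i : S1)) (γ.c (θ j i' : S1)) (pt (S.δ (n (M + φ j))) (S.a (n (M + φ j))) y)
      rw [dist_comm (γ.c (θ j i' : S1))] at h3
      have h4 := γ.dist_le_diam (θ j i : S1) (θ j i' : S1)
      have h1' : dist (pt (S.δ (n (M + φ j))) (S.a (n (M + φ j))) x) (γ.c (θ j i : S1)) ≤ r / 4 := h1
      have h2' : dist (pt (S.δ (n (M + φ j))) (S.a (n (M + φ j))) y) (γ.c (θ j i' : S1)) ≤ r / 4 :=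
        h2
      linarith
    obtain ⟨J, hJ1, hJ2⟩ := light γ hdiam (fun s t hst hts heq => by
      refine Conv.no_pinch hg1 (fun κ ρ hκ hρ => ?_) hconv hv1 hd1 hst hts heq
      obtain ⟨η', hη', h1⟩ := h.pin κ ρ hκ hρ
      exact ⟨η', hη', (hφ0.comp hφ.tendsto_atTop).eventually h1⟩)
    exact ⟨J, hJ1, hJ2.trans hr1⟩

end Vale.Agent.P155.EX
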