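import Vale.Agent.P155.EX.Main2
import Vale.Agent.P155.EX.Jordan

/-!
# P155, stage 2: the main theorem modulo `PIN` and `BDT`
-/

open Set Topology Metric Filter MeasureTheory TopologicalSpace

namespace Vale.Agent.P155.EX

open Vale.Agent.P155 Vale.Agent.P155.Q1

theorem jord : JORD := fun _ _ _ _ _ h _ hk _ hz => hole_jordan h hk hz

/-- **Existence and uniqueness of the nested CLE₄ law, convergence of the double-dimer loops**,
from the two lattice estimates. -/
theorem main_of_pin (hPIN : PIN) (hBDT : BDT) (Ω : Set ℂ)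
    (ho : IsOpen Ω) (hb : Bornology.IsBounded Ω) (hne : Ω.Nonempty)
    (hsc : SimplyConnectedSpace Ω) :
    Nonempty (TempApprox Ω) ∧ ∃ μ : Measure LoopColl, IsProbabilityMeasure μ ∧
      IsNestedCLE4 Ω μ ∧ (∀ ν, IsNestedCLE4 Ω ν → ν = μ) ∧
      ∀ S : TempApprox Ω, ∀ F : LoopColl → ℝ, Continuous F → (∃ C, ∀ Γ, |F Γ| ≤ C) →
        Tendsto (fun n => Ex (S.T n).V (fun ω => F (LL (S.δ n) (S.a n) ω))) atTop
          (𝓝 (∫ Γ, F Γ ∂μ)) :=
  main_of' hPIN hBDT jord Ω ho hb hne hsc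

end Vale.Agent.P155.EX
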