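import Vale.Agent.P155.EX.Iface
import Vale.Agent.P155.H878.Str
import Vale.Agent.P155.H878.Off

/-!
# P155, existence of nested CLE₄: finitely many macroscopic holes

For a good sequence whose loops stay away from the boundary, only finitely many holes of the
limit gaskets (of all levels together) have diameter `> ε`.
-/

namespace Vale.Agent.P155.EX

open Topology Filter MeasureTheory TopologicalSpace Vale.Agent.P155 Vale.Agent.P155.Q1

section lattice

variable {V : Finset Pt} {ω : Conf} {δ : ℝ} {a : ℂ}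

/-- a loop surrounding a point at distance `> 2 r` from one of its vertices has a vertex at
distance `≥ r` from that vertex -/
theorem far_vertex (hδ : 0 < δ) (hω : ω ∈ DD V) {L : Set Pt} (hL : L ∈ Loops ω) {z : ℂ}
    (hz : surrZ δ a ω L z) {u : Pt} {r : ℝ} (hr : 2 * δ < r) (hd : 2 * r ≤ dist z (pt δ a u)) :
    ∃ x ∈ L, r ≤ dist (pt δ a u) (pt δ a x) := by
  by_contra hcon
  push Not at hcon
  set c := pt δ a u with hc
  have hr0 : 0 < r := by linarith
  have hzc : 0 < dist z c := by linarith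
  set C : Set ℂ := (fun t : ℝ => z + (t : ℂ) * (z - c)) '' Set.Ici (0 : ℝ) with hC
  have hdist : ∀ t : ℝ, 0 ≤ t → dist (z + (t : ℂ) * (z - c)) c = (1 + t) * dist z c := by
    intro t ht
    rw [dist_eq_norm, dist_eq_norm, show z + (t : ℂ) * (z - c) - c = ((1 + t : ℝ) : ℂ) * (z - c) by
      push_cast; ring, norm_mul, Complex.norm_real, Real.norm_eq_abs, abs_of_nonneg (by linarith)]
  have hconn : IsPreconnected C := by
    refine isPreconnected_Ici.image _ ?_
    fun_prop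
  have hfar : ∀ w ∈ C, ∀ v ∈ L, 2 * δ < dist w (pt δ a v) := by
    rintro _ ⟨t, ht, rfl⟩ v hv
    have h1 := hdist t ht
    have h2 := hcon v hv
    have h3 := dist_triangle (z + (t : ℂ) * (z - c)) (pt δ a v) c
    rw [dist_comm (pt δ a v) c] at h3
    have h4 : dist z c ≤ (1 + t) * dist z c := by
      have : 0 ≤ t * dist z c := mul_nonneg ht hzc.le
      linarith
    simp only at h3 ⊢
    linarith
  have hb : Bornology.IsBounded (region δ a (P155.L.intr ω L)) :=
    (KConn.isCompact_region hδ (P155.L.intr_finite hω hL)).isBounded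
  obtain ⟨M, hM⟩ := hb.subset_closedBall c
  have hz0 : z ∈ C := ⟨0, Set.mem_Ici.2 (le_refl _), by simp⟩
  set t : ℝ := (|M| + 1) / dist z c with ht
  have ht0 : 0 ≤ t := by positivity
  have hw : z + (t : ℂ) * (z - c) ∈ C := ⟨t, ht0, rfl⟩
  have hs := surrZ_conn hδ hω hL hconn hfar hz0 hw hz
  have h5 := hM (mem_region_of_surrZ hδ hs)
  rw [Metric.mem_closedBall, hdist t ht0] at h5
  have h6 : t * dist z c = |M| + 1 := by rw [ht]; field_simp
  have h7 := le_abs_self M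
  nlinarith

/-- a loop surrounding two points at distance `> ε` has two vertices at distance `≥ ε / 4` -/
theorem two_vertices (hδ : 0 < δ) (hω : ω ∈ DD V) {L : Set Pt} (hL : L ∈ Loops ω) {z z' : ℂ}
    (hz : surrZ δ a ω L z) (hz' : surrZ δ a ω L z') {ε : ℝ} (hε : 8 * δ < ε)
    (hd : ε ≤ dist z z') :
    ∃ x ∈ L, ∃ y ∈ L, ε / 4 ≤ dist (pt δ a x) (pt δ a y) := by
  have hL' := hL
  obtain ⟨v, hv, rfl⟩ := hL'
  have hvL : v ∈ comp ω v := iter_comp ω v 0
  have h1 := dist_triangle_right z z' (pt δ a v)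
  rcases le_total (ε / 2) (dist z (pt δ a v)) with h | h
  · obtain ⟨x, hx, hd'⟩ := far_vertex hδ hω hL hz (u := v) (r := ε / 4) (by linarith) (by linarith)
    exact ⟨v, hvL, x, hx, hd'⟩
  · obtain ⟨x, hx, hd'⟩ := far_vertex hδ hω hL hz' (u := v) (r := ε / 4) (by linarith)
      (by linarith)
    exact ⟨v, hvL, x, hx, hd'⟩

end lattice

variable {Ω : Set ℂ} {S : TempApprox Ω} {n : ℕ → ℕ} {ω : ℕ → Conf} {G : ℕ → NonemptyCompacts ℂ}

/-- two points of a hole of diameter `> ε` at distance `> ε` -/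
theorem hole_points {p : ℕ × Set ℂ} {ε : ℝ} (he : 0 < ε) (hU : IsHole Ω (G p.1) p.2)
    (hd : ε < Metric.diam p.2) : ∃ z z' : ℂ, z ∈ Ω \ (G p.1 : Set ℂ) ∧
      p.2 = connectedComponentIn (Ω \ G p.1) z ∧
      z' ∈ connectedComponentIn (Ω \ G p.1) z ∧ ε < dist z z' := by
  by_contra hcon
  push Not at hcon
  refine absurd hd (not_lt.2 (Metric.diam_le_of_forall_dist_le he.le ?_))
  intro x hx y hy
  obtain ⟨z, hz, hUz⟩ := hU
  rw [hUz] at hx hy
  have hx' : x ∈ Ω \ (G p.1 : Set ℂ) := connectedComponentIn_subset _ _ hx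
  have e := connectedComponentIn_eq hx
  exact hcon x y hx' (hUz.trans e) (e ▸ hy)

/-- **Finitely many macroscopic holes.** -/
theorem fin_of (h : Pre Ω S n ω G) {ε : ℝ} (he : 0 < ε) :
    {p : ℕ × Set ℂ | 1 ≤ p.1 ∧ IsHole Ω (G p.1) p.2 ∧ ε < Metric.diam p.2}.Finite := by
  classical
  by_contra hinf
  have hg := h.good
  -- the scales
  obtain ⟨η, hη, hbdt⟩ := h.bdt (ε / 4) (by positivity)
  obtain ⟨F, hF, hF2, hF3⟩ := str Ω S n ω G hg η (ε / 4) 1 hη (by positivity) one_pos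
  have hM : ∀ R ∈ F, ∃ M : ℕ, ∀ᶠ j in atTop,
      Set.ncard {v | ∃ m, R.d.Crosses (S.δ (n j)) (S.a (n j)) (ω j) R.r0 R.r1 R.s0 R.s1 v m} ≤ M := by
    intro R hR
    obtain ⟨h1, h2, h3, h4, h5⟩ := hF2 R hR
    refine hg.cross R.d h1 R.r0 R.r1 R.s0 R.s1 h2 h3 (Set.Subset.trans ?_ h4)
    intro w hw
    obtain ⟨w1, w2, w3, w4⟩ := hw
    have e : (R.r0 : ℝ) < R.r1 := by exact_mod_cast h2
    unfold RR.big Dir.rect
    simp only [Set.mem_ofPred_eq]
    push_cast
    refine ⟨?_, ?_, ?_, ?_⟩ <;> linarith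
  choose! M hM using hM
  have hall : ∀ᶠ j in atTop, ∀ R ∈ F, Set.ncard {v | ∃ m, R.d.Crosses (S.δ (n j)) (S.a (n j)) (ω j)
      R.r0 R.r1 R.s0 R.s1 v m} ≤ M R := (eventually_all_finite hF).2 hM
  -- the holes
  obtain ⟨A, hA, hcard⟩ := Set.Infinite.exists_subset_card_eq hinf (∑ R ∈ hF.toFinset, M R + 1)
  have hA' : ∀ p ∈ A, 1 ≤ p.1 ∧ IsHole Ω (G p.1) p.2 ∧ ε < Metric.diam p.2 := fun p hp =>
    hA (Finset.mem_coe.2 hp)
  have hpts : ∀ p ∈ A, ∃ z z' : ℂ, z ∈ Ω \ (G p.1 : Set ℂ) ∧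
      p.2 = connectedComponentIn (Ω \ G p.1) z ∧
      z' ∈ connectedComponentIn (Ω \ G p.1) z ∧ ε < dist z z' := fun p hp =>
    hole_points he (hA' p hp).2.1 (hA' p hp).2.2
  choose! z z' hz hpz hzz' hdz using hpts
  -- the loops
  have hexi : ∀ᶠ j in atTop, ∀ p ∈ A, ∃ v, (ω j).1 v ≠ (ω j).2 v ∧
      level (ω j) (comp (ω j) v) = p.1 ∧
      surrZ (S.δ (n j)) (S.a (n j)) (ω j) (comp (ω j) v) (z p) :=
    (eventually_all_finite A.finite_toSet).2 fun p hp =>
      exi Ω S n ω G hg p.1 (hA' p hp).1 (z p) (hz p hp)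
  have hscc : ∀ᶠ j in atTop, ∀ p ∈ A, ∀ L ∈ Loops (ω j), level (ω j) L = p.1 →
      surrZ (S.δ (n j)) (S.a (n j)) (ω j) L (z p) →
      surrZ (S.δ (n j)) (S.a (n j)) (ω j) L (z' p) :=
    (eventually_all_finite A.finite_toSet).2 fun p hp =>
      scc Ω S n ω G hg p.1 (hA' p hp).1 (z p) (hz p hp) (z' p) (hzz' p hp)
  have hsame : ∀ᶠ j in atTop, ∀ p ∈ A, ∀ q ∈ A, p ≠ q → p.1 = q.1 →
      ¬ ∃ L ∈ Loops (ω j), level (ω j) L = p.1 ∧
        surrZ (S.δ (n j)) (S.a (n j)) (ω j) L (z p) ∧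
        surrZ (S.δ (n j)) (S.a (n j)) (ω j) L (z q) := by
    refine (eventually_all_finite A.finite_toSet).2 fun p hp =>
      (eventually_all_finite A.finite_toSet).2 fun q hq => ?_
    by_cases hpq : p ≠ q ∧ p.1 = q.1
    · obtain ⟨h1, h2⟩ := hpq
      have h3 := hg.same p.1 (hA' p hp).1 (z p) (z q) (hz p hp) (by rw [h2]; exact hz q hq) (by
        intro e
        refine h1 (Prod.ext h2 ?_)
        rw [hpz p hp, e, h2]
        exact (hpz q hq).symm)
      filter_upwards [h3] with j hj _ _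
      exact hj
    · filter_upwards with j h1 h2
      exact absurd ⟨h1, h2⟩ hpq
  -- a large index
  obtain ⟨j, hexi, hscc, hsame, hall, hF3, hbdt, hδj⟩ := (hexi.and (hscc.and (hsame.and (hall.and
    (hF3.and (hbdt.and (hg.delta_lt (show (0 : ℝ) < ε / 8 by positivity)))))))).exists
  have hω := hg.mem j
  have hδ := S.pos (n j)
  choose! v hv hvl hvs using hexi
  have hne : ∀ p ∈ A, ∀ q ∈ A, p ≠ q → comp (ω j) (v p) ≠ comp (ω j) (v q) := by
    intro p hp q hq hpq e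
    have hl : p.1 = q.1 := by rw [← hvl p hp, ← hvl q hq, e]
    exact hsame p hp q hq hpq hl ⟨comp (ω j) (v p), comp_mem_Loops (hv p hp), hvl p hp, hvs p hp, by
      rw [e]; exact hvs q hq⟩
  have hch : ∀ p ∈ A, ∃ R ∈ F, ∃ i m', R.d.Crosses (S.δ (n j)) (S.a (n j)) (ω j)
      R.r0 R.r1 R.s0 R.s1 ((SW.suc (ω j))^[i] (v p)) m' := by
    intro p hp
    have hL := comp_mem_Loops (hv p hp)
    have h2v := two_vertices hδ hω hL (hvs p hp)
      (hscc p hp _ hL (hvl p hp) (hvs p hp)) (ε := ε) (by linarith) (hdz p hp).le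
    have hvV := mem_V_of_loop hω (hv p hp)
    have hdeep : DeepP S (n j) (ω j) η (v p) (comp (ω j) (v p)).ncard := by
      intro i _
      have hi := iter_comp (ω j) (v p) i
      have hci := P155.L.comp_eq_of_mem hω hi
      refine hbdt _ (P155.L.loop_ne hω hL hi) ?_
      rw [hci]
      exact h2v
    have hfar : Far S (n j) (ω j) (ε / 4) (v p) (comp (ω j) (v p)).ncard := by
      obtain ⟨x, hx, y, hy, hxy⟩ := h2v
      obtain ⟨i, hi, rfl⟩ := exists_iter hω hvV hx
      obtain ⟨i', hi', rfl⟩ := exists_iter hω hvV hy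
      exact ⟨i, hi.le, i', hi'.le, hxy⟩
    obtain ⟨R, hR, i, m', -, -, h3⟩ := hF3 (v p) _ (hv p hp) hdeep hfar
    exact ⟨R, hR, i, m', h3⟩
  have : Nonempty RR := ⟨⟨hor, 0, 0, 0, 0⟩⟩
  choose! Rf hRf idx mf hmf using hch
  have hsum : A.card ≤ ∑ R ∈ hF.toFinset, M R := by
    refine (le_of_eq (Finset.card_eq_sum_card_fiberwise (f := Rf) (t := hF.toFinset) ?_)).trans
      (Finset.sum_le_sum fun R hR => ?_)
    · intro p hp
      exact hF.mem_toFinset.2 (hRf p hp)
    refine le_trans ?_ (hall R (hF.mem_toFinset.1 hR))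
    have hfin : {v | ∃ m, R.d.Crosses (S.δ (n j)) (S.a (n j)) (ω j) R.r0 R.r1 R.s0 R.s1 v m}.Finite := by
      apply (S.T (n j)).V.finite_toSet.subset
      rintro v ⟨m, hm⟩
      exact mem_V_of_loop hω hm.loop
    rw [Set.ncard_eq_toFinset_card _ hfin]
    apply Finset.card_le_card_of_injOn (fun p => (SW.suc (ω j))^[idx p] (v p))
    · intro p hp
      obtain ⟨h1, h2⟩ := Finset.mem_filter.1 hp
      rw [SetLike.mem_coe, hfin.mem_toFinset]
      refine ⟨mf p, ?_⟩
      have := hmf p h1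
      rw [h2] at this
      exact this
    · intro p hp q hq he'
      by_contra hpq
      have hp1 := (Finset.mem_filter.1 hp).1
      have hq1 := (Finset.mem_filter.1 hq).1
      refine hne p hp1 q hq1 hpq ?_
      have h1 := P155.L.comp_eq_of_mem hω (iter_comp (ω j) (v p) (idx p))
      have h2 := P155.L.comp_eq_of_mem hω (iter_comp (ω j) (v q) (idx q))
      simp only at he'
      rw [← h1, ← h2, he']
  omega

end Vale.Agent.P155.EX
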