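import Vale.Agent.P155.EX.Cond
import Vale.Agent.P155.EX.Fin

/-!
# P155, stage 2: existence of the nested CLE₄ law, assembly
-/

open Set Topology Metric Filter MeasureTheory TopologicalSpace

namespace Vale.Agent.P155.EX

open Vale.Agent.P155 Vale.Agent.P155.Q1 U902

/-- (P2) the holes of a `Pre` sequence are bounded by simple loops inside the domain -/
def JORD : Prop := ∀ (Ω : Set ℂ) (S : TempApprox Ω) (n : ℕ → ℕ) (ω : ℕ → Conf)
  (G : ℕ → NonemptyCompacts ℂ), Pre Ω S n ω G → ∀ k, 1 ≤ k → ∀ z ∈ Ω \ (G k : Set ℂ),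
  frontier (connectedComponentIn (Ω \ (G k : Set ℂ)) z) ⊆ Ω ∧
    ∃ J : PL, IsJordan J (frontier (connectedComponentIn (Ω \ (G k : Set ℂ)) z))

theorem holeLoops_of_pre (hJ : JORD) {Ω : Set ℂ} {S : TempApprox Ω} {n : ℕ → ℕ} {ω : ℕ → Conf}
    {G : ℕ → NonemptyCompacts ℂ} (h : Pre Ω S n ω G) : HoleLoops Ω G (Gam Ω G) := by
  refine holeLoops_Gam (exists_coll h.good.bdd ?_ ?_ fun ε hε => fin_of h hε)
  · rintro k _ hk ⟨z, hz, rfl⟩
    exact (hJ Ω S n ω G h k hk z hz).2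
  · rintro k _ hk ⟨z, hz, rfl⟩
    exact (hJ Ω S n ω G h k hk z hz).1

theorem conv_of_pre (hJ : JORD) {Ω : Set ℂ} {S : TempApprox Ω} {n : ℕ → ℕ} {ω : ℕ → Conf}
    {G : ℕ → NonemptyCompacts ℂ} (h : Pre Ω S n ω G) :
    Tendsto (fun j => LL (S.δ (n j)) (S.a (n j)) (ω j)) atTop (𝓝 (Gam Ω G)) :=
  (det Ω S n ω G (Gam Ω G) h.good (holeLoops_of_pre hJ h)).2 h.bdL

/-- (P3) measurability from the real valued functions -/
def MEAS : Prop := ∀ (Θ : Type) (_ : MeasurableSpace Θ) (P : Measure Θ) (Γ : Θ → LoopColl)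
  (C : Set LoopColl), C.Countable → (∀ᵐ x ∂P, Γ x ∈ closure C) →
  (∀ F : LoopColl → ℝ, Continuous F → (∃ C, ∀ y, |F y| ≤ C) →
    AEStronglyMeasurable (fun x => F (Γ x)) P) → AEMeasurable Γ P

section

variable {Ω : Set ℂ} {Θ : Type} [MeasurableSpace Θ] {P : Measure Θ}
  {G : ℕ → Θ → NonemptyCompacts ℂ} {ξ : ℕ → ℕ → Θ → ℝ}

open scoped PiCountable in
/-- what the passage to the limit gives, for carpets with fair signs -/
theorem pass_of_fair (hFull : Uq.FullStatement) (hCr : CROSS hor ∧ CROSS ver)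
    (hFa : FAT hor ∧ FAT ver) (hTo : TOP hor ∧ TOP ver) (hPIN : PIN) (hBDT : BDT) (hJ : JORD)
    (ho : IsOpen Ω) (hb : Bornology.IsBounded Ω) (hne : Ω.Nonempty)
    (hsc : SimplyConnectedSpace Ω) (S : TempApprox Ω) (h : T211Q.FairCarpets P Ω G ξ) :
    (∀ F : LoopColl → ℝ, Continuous F → (∃ C, ∀ y, |F y| ≤ C) →
      AEStronglyMeasurable (fun x => F (Gam Ω fun k => G k x)) P ∧
      Tendsto (fun n => Ex (S.T n).V (fun ω => F (LL (S.δ n) (S.a n) ω))) atTop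
        (𝓝 (∫ x, F (Gam Ω fun k => G k x) ∂P))) ∧
    ∀ᵐ x ∂P, ∃ (n : ℕ → ℕ) (ω : ℕ → Conf), Pre Ω S n ω (fun k => G k x) := by
  have hP := h.prob
  obtain ⟨hmeas, hlim, -⟩ := gaskets hFull ho hb hne hsc S h
  have key : ∀ F : LoopColl → ℝ, Continuous F → (∃ C, ∀ y, |F y| ≤ C) →
      AEStronglyMeasurable (fun x => F (Gam Ω fun k => G k x)) P ∧
      Tendsto (fun n => K.avg (DD (S.T n).V) (fun ω => F (LL (S.δ n) (S.a n) ω))) atTop
        (𝓝 (∫ x, F (Gam Ω fun k => G k x) ∂P)) ∧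
      ∀ᵐ x ∂P, ∃ (n : ℕ → ℕ) (ω : ℕ → Conf), Tendsto n atTop atTop ∧
        (∀ j, ω j ∈ DD (S.T (n j)).V) ∧
        (∀ i, ∃ c, ∀ᶠ j in atTop, CdX Ω S i c (n j) (ω j)) ∧
        Tendsto (fun j => (fun l => toNC (gasket (S.δ (n j)) (S.a (n j)) (S.T (n j)) l (ω j))))
          atTop (𝓝 (fun l => G l x)) := by
    intro F hF hFb
    obtain ⟨CF, hCF⟩ := hFb
    refine pass_countable' P (E := ℕ → NonemptyCompacts ℂ) (D := fun n => DD (S.T n).V)
      (Y := fun n ω l => toNC (gasket (S.δ n) (S.a n) (S.T n) l ω)) (Z := fun x l => G l x)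
      (Cd := CdX Ω S) (Φn := fun n ω => F (LL (S.δ n) (S.a n) ω))
      (Φ := fun x => F (Gam Ω fun k => G k x)) (M := CF)
      hmeas hlim ?_ (fun n ω _ => hCF _) ?_
    · intro i ε hε
      exact cdX_tight hPIN hBDT ho hb hne hsc hCr hFa hTo i ε hε
    · filter_upwards [h.sc.zero, h.sc.null] with x h2 h3 n ω hn hω hcd hY
      exact (hF.tendsto _).comp (conv_of_pre hJ (pre_of ho hb hn hω hY h2.1 h3 hcd))
  refine ⟨fun F hF hFb => ⟨(key F hF hFb).1, (key F hF hFb).2.1⟩, ?_⟩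
  filter_upwards [(key (fun _ => 0) continuous_const ⟨0, by simp⟩).2.2, h.sc.zero, h.sc.null]
    with x hx h2 h3
  obtain ⟨n, ω, hn, hω, hcd, hY⟩ := hx
  exact ⟨n, ω, pre_of ho hb hn hω hY h2.1 h3 hcd⟩

/-- **The law of the boundary loops of the carpets is a nested CLE₄ law**, and it is the limit of
the laws of the double-dimer loops. -/
theorem nested_of_fair (hFull : Uq.FullStatement) (hCr : CROSS hor ∧ CROSS ver)
    (hFa : FAT hor ∧ FAT ver) (hTo : TOP hor ∧ TOP ver) (hPIN : PIN) (hBDT : BDT) (hJ : JORD)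
    (hM : MEAS)
    (ho : IsOpen Ω) (hb : Bornology.IsBounded Ω) (hne : Ω.Nonempty)
    (hsc : SimplyConnectedSpace Ω) (S : TempApprox Ω) (h : T211Q.FairCarpets P Ω G ξ) :
    AEMeasurable (fun x => Gam Ω fun k => G k x) P ∧
      IsNestedCLE4 Ω (P.map fun x => Gam Ω fun k => G k x) := by
  have hP := h.prob
  obtain ⟨h1, h2⟩ := pass_of_fair hFull hCr hFa hTo hPIN hBDT hJ ho hb hne hsc S h
  have hm : AEMeasurable (fun x => Gam Ω fun k => G k x) P := by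
    refine hM Θ inferInstance P _ (⋃ n : ℕ, (fun ω => LL (S.δ n) (S.a n) ω) '' (DD (S.T n).V : Set Conf))
      (countable_iUnion fun n => ((DD (S.T n).V).finite_toSet.image _).countable) ?_
      fun F hF hFb => (h1 F hF hFb).1
    filter_upwards [h2] with x hx
    obtain ⟨n, ω, hpre⟩ := hx
    refine mem_closure_of_tendsto (conv_of_pre hJ hpre) (Eventually.of_forall fun j => ?_)
    exact mem_iUnion.2 ⟨n j, ω j, hpre.good.mem j, rfl⟩
  refine ⟨hm, Θ, inferInstance, P, G, ξ, _, hP, hm, rfl, ?_, h.mξ, h.pm, h.half, h.iind, h.mG,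
    h.ind, h.sc⟩
  filter_upwards [h2] with x hx
  obtain ⟨n, ω, hpre⟩ := hx
  exact holeLoops_of_pre hJ hpre

end

end Vale.Agent.P155.EX
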