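import Vale.Agent.P155.EX.Sep
import Vale.Agent.P155.H878.Loops

/-!
# P155, stage 2, block EX1: a closed curve without pinches has no bottlenecks
-/

open Set Topology Metric

namespace Vale.Agent.P155.EX

open Vale.Agent.P155.EX.Top

/-- logarithms are additive near `1` -/
theorem log_mul_near {a b : ℂ} (ha : ‖a - 1‖ < 1) (hb : ‖b - 1‖ < 1) :
    Complex.log (a * b) = Complex.log a + Complex.log b := by
  have key : ∀ c : ℂ, ‖c - 1‖ < 1 → |Complex.arg c| < Real.pi / 2 ∧ c ≠ 0 := by
    intro c hc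
    have h1 : 0 < c.re := by
      have h2 := Complex.abs_re_le_norm (c - 1)
      rw [Complex.sub_re, Complex.one_re] at h2
      have h3 := (abs_lt.1 (h2.trans_lt hc)).1
      linarith
    refine ⟨Complex.abs_arg_lt_pi_div_two_iff.2 (Or.inl h1), ?_⟩
    rintro rfl
    simp at h1
  obtain ⟨a1, a2⟩ := key a ha
  obtain ⟨b1, b2⟩ := key b hb
  rw [abs_lt] at a1 b1
  refine Complex.log_mul a2 b2 ⟨by linarith [a1.1, b1.1], by linarith [a1.2, b1.2]⟩

/-- the logarithm of the ratio of `(w - z) / (w - z')` at two near points -/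
noncomputable def Lam (z z' w p : ℂ) : ℂ :=
  Complex.log ((w - z) / (p - z)) - Complex.log ((w - z') / (p - z'))

theorem ratio_near {z w p : ℂ} {r : ℝ} (hr : 0 < r) (hp : r ≤ dist p z) (hwp : dist w p < r) :
    ‖(w - z) / (p - z) - 1‖ < 1 := by
  have hne : p - z ≠ 0 := by
    intro h0
    rw [sub_eq_zero.1 h0, dist_self] at hp
    linarith
  have e : (w - z) / (p - z) - 1 = (w - p) / (p - z) := by
    field_simp
    ring
  rw [e, norm_div, ← dist_eq_norm, ← dist_eq_norm, div_lt_one (hr.trans_le hp)]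
  exact hwp.trans_le hp

theorem Lam_self {z z' p : ℂ} (h : p ≠ z) (h' : p ≠ z') : Lam z z' p p = 0 := by
  unfold Lam
  rw [div_self (sub_ne_zero.2 h), div_self (sub_ne_zero.2 h'), Complex.log_one, sub_zero]

theorem Lam_cocycle {z z' w p q : ℂ} {r : ℝ} (hr : 0 < r) (hp : r ≤ dist p z) (hp' : r ≤ dist p z')
    (hq : r ≤ dist q z) (hq' : r ≤ dist q z') (hwp : dist w p < r) (hpq : dist p q < r) :
    Lam z z' w q = Lam z z' w p + Lam z z' p q := by
  have key : ∀ z : ℂ, r ≤ dist p z → r ≤ dist q z →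
      Complex.log ((w - z) / (q - z)) =
        Complex.log ((w - z) / (p - z)) + Complex.log ((p - z) / (q - z)) := by
    intro z h1 h2
    rw [← log_mul_near (ratio_near hr h1 hwp) (ratio_near hr h2 hpq)]
    congr 1
    have h3 : p - z ≠ 0 := by
      intro h0
      rw [sub_eq_zero.1 h0, dist_self] at h1
      linarith
    field_simp
  unfold Lam
  rw [key z hp hq, key z' hp' hq']
  ring

theorem exp_Lam {z z' w p : ℂ} (h1 : w ≠ z) (h2 : w ≠ z') (h3 : p ≠ z) (h4 : p ≠ z') :
    Complex.exp (Lam z z' w p) = ((w - z) / (w - z')) / ((p - z) / (p - z')) := by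
  have a1 := sub_ne_zero.2 h1
  have a2 := sub_ne_zero.2 h2
  have a3 := sub_ne_zero.2 h3
  have a4 := sub_ne_zero.2 h4
  unfold Lam
  rw [Complex.exp_sub, Complex.exp_log (div_ne_zero a1 a3), Complex.exp_log (div_ne_zero a2 a4)]
  field_simp

theorem continuousOn_Lam {z z' p : ℂ} {r : ℝ} (hr : 0 < r) (hp : r ≤ dist p z)
    (hp' : r ≤ dist p z') : ContinuousOn (fun w => Lam z z' w p) (ball p r) := by
  have key : ∀ z : ℂ, r ≤ dist p z →
      ContinuousOn (fun w : ℂ => Complex.log ((w - z) / (p - z))) (ball p r) := by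
    intro z hz
    refine ContinuousOn.clog (by fun_prop) fun w hw => ?_
    have h := ratio_near hr hz (mem_ball.1 hw)
    rw [Complex.mem_slitPlane_iff]
    left
    have h2 := Complex.abs_re_le_norm ((w - z) / (p - z) - 1)
    rw [Complex.sub_re, Complex.one_re] at h2
    have h3 := (abs_lt.1 (h2.trans_lt h)).1
    linarith
  exact (key z hp).sub (key z' hp')

/-- **No bottleneck.** If the closed curve `γ` does not separate `z` from `z'` and has no pinches
`(ρ, 3 η)`, then its closed `η`-neighbourhood does not separate them either. -/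
theorem bottleneck (γ : Q1.PL) {z z' : ℂ} {s η ρ : ℝ} (hη : 0 < η)
    (hz : ∀ t, s ≤ dist (γ.c t) z) (hz' : ∀ t, s ≤ dist (γ.c t) z')
    (hj : JoinedIn (range γ.c)ᶜ z z')
    (hp : ∀ x y : ℝ, x ≤ y → y ≤ x + 1 → dist (γ.c (x : Q1.S1)) (γ.c (y : Q1.S1)) ≤ 3 * η →
      (∀ u ∈ Icc x y, dist (γ.c (u : Q1.S1)) (γ.c (x : Q1.S1)) ≤ ρ) ∨
      (∀ u ∈ Icc y (x + 1), dist (γ.c (u : Q1.S1)) (γ.c (x : Q1.S1)) ≤ ρ))
    (h1 : 8 * η ≤ s) (h2 : ρ < s) : JoinedIn (cthickening η (range γ.c))ᶜ z z' := by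
  have hs : 0 < s := by linarith
  set K := range γ.c with hK
  have hKc : IsCompact K := isCompact_range γ.c.continuous
  obtain ⟨F, hF, hFe⟩ := logOn_of_joinedIn hKc.isClosed hj
  have hne : ∀ p, s ≤ dist p z → p ≠ z := by
    rintro p h rfl
    rw [dist_self] at h
    linarith
  have hne' : ∀ p, s ≤ dist p z' → p ≠ z' := by
    rintro p h rfl
    rw [dist_self] at h
    linarith
  have hKz : ∀ p ∈ K, s ≤ dist p z := by
    rintro _ ⟨t, rfl⟩
    exact hz t
  have hKz' : ∀ p ∈ K, s ≤ dist p z' := by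
    rintro _ ⟨t, rfl⟩
    exact hz' t
  -- Claim A, oriented
  have claim1 : ∀ x y : ℝ, x ≤ y → y ≤ x + 1 → dist (γ.c (x : Q1.S1)) (γ.c (y : Q1.S1)) ≤ 3 * η →
      F (γ.c (y : Q1.S1)) - F (γ.c (x : Q1.S1)) =
        Lam z z' (γ.c (y : Q1.S1)) (γ.c (x : Q1.S1)) := by
    intro x y hxy hyx hd
    have hcont : ∀ A : Set ℝ, (∀ u ∈ A, dist (γ.c (u : Q1.S1)) (γ.c (x : Q1.S1)) ≤ ρ) →
        ContinuousOn (fun u : ℝ => F (γ.c (u : Q1.S1))) A ∧
        ContinuousOn (fun u : ℝ => F (γ.c (x : Q1.S1)) +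
          Lam z z' (γ.c (u : Q1.S1)) (γ.c (x : Q1.S1))) A ∧
        ∀ u ∈ A, Complex.exp (F (γ.c (u : Q1.S1))) = Complex.exp (F (γ.c (x : Q1.S1)) +
          Lam z z' (γ.c (u : Q1.S1)) (γ.c (x : Q1.S1))) := by
      intro A hA
      have hγ : Continuous fun u : ℝ => γ.c (u : Q1.S1) :=
        γ.c.continuous.comp (AddCircle.continuous_mk' 1)
      refine ⟨?_, ?_, ?_⟩
      · exact hF.comp hγ.continuousOn fun u _ => ⟨_, rfl⟩
      · refine continuousOn_const.add ?_
        refine (continuousOn_Lam hs (hz _) (hz' _)).comp hγ.continuousOn fun u hu => ?_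
        rw [mem_ball]
        exact (hA u hu).trans_lt h2
      · intro u _
        rw [Complex.exp_add, exp_Lam (hne _ (hz _)) (hne' _ (hz' _)) (hne _ (hz _))
          (hne' _ (hz' _)), hFe _ ⟨_, rfl⟩, hFe _ ⟨_, rfl⟩]
        have a1 := sub_ne_zero.2 (hne _ (hz (x : Q1.S1)))
        have a2 := sub_ne_zero.2 (hne' _ (hz' (x : Q1.S1)))
        field_simp
    rcases hp x y hxy hyx hd with h | h
    · obtain ⟨c1, c2, c3⟩ := hcont (Icc x y) h
      have := log_diff_const isPreconnected_Icc c1 c2 c3 (right_mem_Icc.2 hxy)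
        (left_mem_Icc.2 hxy)
      simp only [Lam_self (hne _ (hz (x : Q1.S1))) (hne' _ (hz' (x : Q1.S1))), add_zero,
        sub_self] at this
      linear_combination this
    · obtain ⟨c1, c2, c3⟩ := hcont (Icc y (x + 1)) h
      have := log_diff_const isPreconnected_Icc c1 c2 c3 (left_mem_Icc.2 hyx)
        (right_mem_Icc.2 hyx)
      have e : ((x + 1 : ℝ) : Q1.S1) = (x : Q1.S1) := by
        have := AddCircle.coe_add_period (1 : ℝ) x
        exact this
      simp only [e, Lam_self (hne _ (hz (x : Q1.S1))) (hne' _ (hz' (x : Q1.S1))), add_zero,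
        sub_self] at this
      linear_combination this
  -- Claim A
  have claimA : ∀ p ∈ K, ∀ q ∈ K, dist p q ≤ 3 * η → F q = F p + Lam z z' q p := by
    rintro _ ⟨t, rfl⟩ _ ⟨t', rfl⟩ hd
    obtain ⟨x, rfl⟩ := QuotientAddGroup.mk_surjective t
    obtain ⟨y, rfl⟩ := QuotientAddGroup.mk_surjective t'
    -- choose `y` in `[x, x + 1)`
    obtain ⟨y', hy', hyy⟩ : ∃ y' ∈ Ico x (x + 1), (y' : Q1.S1) = (y : Q1.S1) :=
      ⟨toIcoMod one_pos x y, toIcoMod_mem_Ico one_pos x y, by
        have := AddCircle.coe_equivIco_mk_apply (1 : ℝ) y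
        rw [QuotientAddGroup.eq]
        refine ⟨toIcoDiv one_pos x y, ?_⟩
        have h3 := toIcoMod_add_toIcoDiv_zsmul (p := (1 : ℝ)) one_pos x y
        simp only
        linarith⟩
    have h4 := claim1 x y' hy'.1 hy'.2.le (by
      show dist (γ.c (x : Q1.S1)) (γ.c (y' : Q1.S1)) ≤ 3 * η
      rw [hyy]; exact hd)
    rw [hyy] at h4
    have h5 : F (γ.c (y : Q1.S1)) = F (γ.c (x : Q1.S1)) +
        Lam z z' (γ.c (y : Q1.S1)) (γ.c (x : Q1.S1)) := by linear_combination h4
    exact h5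
  -- nearest points
  have hnear : ∀ w ∈ cthickening η K, ∃ p ∈ K, dist w p ≤ η := by
    intro w hw
    rw [hKc.cthickening_eq_biUnion_closedBall hη.le, mem_iUnion₂] at hw
    obtain ⟨p, hp, hw⟩ := hw
    exact ⟨p, hp, mem_closedBall.1 hw⟩
  choose! P hPK hPd using hnear
  have hfar : ∀ w ∈ cthickening η K, s / 2 ≤ dist w z ∧ s / 2 ≤ dist w z' := by
    intro w hw
    have a1 := hKz _ (hPK w hw)
    have a2 := hKz' _ (hPK w hw)
    have a3 := hPd w hw
    have a4 := dist_triangle (P w) w z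
    have a5 := dist_triangle (P w) w z'
    rw [dist_comm (P w) w] at a4 a5
    constructor <;> linarith
  have hs2 : 0 < s / 2 := by linarith
  have hwne : ∀ w ∈ cthickening η K, w ≠ z ∧ w ≠ z' := by
    intro w hw
    obtain ⟨b1, b2⟩ := hfar w hw
    constructor
    · rintro rfl
      rw [dist_self] at b1
      linarith
    · rintro rfl
      rw [dist_self] at b2
      linarith
  have hlog : LogOn (cthickening η K) (fun w => (w - z) / (w - z')) := by
    refine ⟨fun w => F (P w) + Lam z z' w (P w), ?_, ?_⟩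
    · intro w0 hw0
      have hc : ContinuousWithinAt (fun w => F (P w0) + Lam z z' w (P w0)) (cthickening η K) w0 := by
        refine ContinuousAt.continuousWithinAt ?_
        refine ContinuousAt.add continuousAt_const ?_
        refine (continuousOn_Lam hs (hKz _ (hPK w0 hw0)) (hKz' _ (hPK w0 hw0))).continuousAt ?_
        refine isOpen_ball.mem_nhds ?_
        rw [mem_ball]
        have := hPd w0 hw0
        linarith
      refine hc.congr_of_eventuallyEq ?_ rfl
      have hev : ∀ᶠ w in 𝓝[cthickening η K] w0, w ∈ ball w0 η ∧ w ∈ cthickening η K :=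
        Filter.inter_mem (nhdsWithin_le_nhds (ball_mem_nhds w0 hη)) self_mem_nhdsWithin
      filter_upwards [hev] with w hw
      obtain ⟨hwb, hwK⟩ := hw
      rw [mem_ball] at hwb
      have d1 := hPd w hwK
      have d0 := hPd w0 hw0
      have dpq : dist (P w0) (P w) ≤ 3 * η := by
        have t1 := dist_triangle (P w0) w0 (P w)
        have t2 := dist_triangle w0 w (P w)
        rw [dist_comm (P w0) w0] at t1
        rw [dist_comm w0 w] at t2
        linarith
      rw [claimA _ (hPK w0 hw0) _ (hPK w hwK) dpq]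
      rw [Lam_cocycle hs (hKz _ (hPK w hwK)) (hKz' _ (hPK w hwK)) (hKz _ (hPK w0 hw0))
        (hKz' _ (hPK w0 hw0)) (lt_of_le_of_lt d1 (by linarith)) (by
          rw [dist_comm]; exact lt_of_le_of_lt dpq (by linarith))]
      ring
    · intro w hw
      have k1 := hKz _ (hPK w hw)
      have k2 := hKz' _ (hPK w hw)
      rw [Complex.exp_add, exp_Lam (hwne w hw).1 (hwne w hw).2 (hne _ k1) (hne' _ k2),
        hFe _ (hPK w hw)]
      have a1 := sub_ne_zero.2 (hne _ k1)
      have a2 := sub_ne_zero.2 (hne' _ k2)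
      field_simp
  refine joinedIn_of_logOn hKc.cthickening ?_ ?_ hlog
  · intro h
    exact (hwne z h).1 rfl
  · intro h
    exact (hwne z' h).2 rfl

end Vale.Agent.P155.EX
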