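import Vale.Agent.P155.H878.Match

/-!
# P155, stage 2: the collection of the boundary loops of the holes
-/

open Set Topology Metric Filter TopologicalSpace

namespace Vale.Agent.P155.EX

open Vale.Agent.P155 Vale.Agent.P155.Q1

/-- if all holes are bounded by simple loops inside `Ω`, finitely many of them being large, then
there is a collection of their boundary loops -/
theorem exists_coll {Ω : Set ℂ} (hb : Bornology.IsBounded Ω) {G : ℕ → NonemptyCompacts ℂ}
    (hj : ∀ k U, 1 ≤ k → IsHole Ω (G k) U → ∃ γ : PL, IsJordan γ (frontier U))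
    (hi : ∀ k U, 1 ≤ k → IsHole Ω (G k) U → frontier U ⊆ Ω)
    (hf : ∀ ε : ℝ, 0 < ε →
      {p : ℕ × Set ℂ | 1 ≤ p.1 ∧ IsHole Ω (G p.1) p.2 ∧ ε < Metric.diam p.2}.Finite) :
    ∃ Γ : LoopColl, HoleLoops Ω G Γ := by
  classical
  -- the diameter of the loop is at most the diameter of the hole
  have hdiam : ∀ (p : ℕ × Set ℂ) (c : PL), IsHole Ω (G p.1) p.2 → IsJordan c (frontier p.2) →
      c.diam ≤ Metric.diam p.2 := by
    intro p c hp hc
    unfold PL.diam
    rw [hc.2]
    refine diam_frontier_le (hb.subset ?_)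
    obtain ⟨z, hz, he⟩ := hp
    rw [he]
    exact (connectedComponentIn_subset _ _).trans fun w hw => hw.1
  refine ⟨⟨fun γ => Set.ncard {p : ℕ × Set ℂ | 1 ≤ p.1 ∧ IsHole Ω (G p.1) p.2 ∧
    ∃ c : PL, IsJordan c (frontier p.2) ∧ SeparationQuotient.mk c = γ}, ?_, ?_⟩,
    ⟨hj, hi, hf, fun γ => rfl⟩⟩
  · intro γ hγ
    obtain ⟨p, h1, h2, c, hc, rfl⟩ := Set.nonempty_of_ncard_ne_zero hγ
    exact jordan_diam_pos hc.1
  · intro ε hε
    refine ((hf ε hε).image fun p => if h : ∃ c : PL, IsJordan c (frontier p.2) then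
      (SeparationQuotient.mk h.choose : Loop) else
      SeparationQuotient.mk ⟨ContinuousMap.const _ 0⟩).subset ?_
    rintro γ ⟨hγ, hd⟩
    obtain ⟨p, h1, h2, c, hc, rfl⟩ := Set.nonempty_of_ncard_ne_zero hγ
    refine ⟨p, ⟨h1, h2, ?_⟩, ?_⟩
    · have := hdiam p c h2 hc
      rw [Loop.diam_mk] at hd
      linarith
    · have hex : ∃ c : PL, IsJordan c (frontier p.2) := ⟨c, hc⟩
      simp only [dif_pos hex]
      rw [SeparationQuotient.mk_eq_mk, Metric.inseparable_iff]
      exact jordan_unique hex.choose_spec hc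

theorem holeLoops_unique {Ω : Set ℂ} {G : ℕ → NonemptyCompacts ℂ} {Γ Γ' : LoopColl}
    (h : HoleLoops Ω G Γ) (h' : HoleLoops Ω G Γ') : Γ = Γ' := by
  apply LoopColl.ext
  funext γ
  rw [h.mult, h'.mult]

open Classical in
/-- the collection of the boundary loops of the holes -/
noncomputable def Gam (Ω : Set ℂ) (G : ℕ → NonemptyCompacts ℂ) : LoopColl :=
  if h : ∃ Γ, HoleLoops Ω G Γ then h.choose else
    ofFamily (∅ : Set ℕ) Set.finite_empty
      (fun _ => SeparationQuotient.mk ⟨ContinuousMap.const _ 0⟩)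

theorem holeLoops_Gam {Ω : Set ℂ} {G : ℕ → NonemptyCompacts ℂ} (h : ∃ Γ, HoleLoops Ω G Γ) :
    HoleLoops Ω G (Gam Ω G) := by
  unfold Gam
  rw [dif_pos h]
  exact h.choose_spec

end Vale.Agent.P155.EX
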