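import Vale.Agent.P155.EX.SameP
import Vale.Agent.P155.EX.Coll
import Vale.Agent.P155.H878.Assem
import Vale.Agent.P155.H878.Det

/-!
# P155, stage 2: the conditions of `Pre` are tight
-/

open Set Topology Metric Filter MeasureTheory TopologicalSpace

namespace Vale.Agent.P155.EX

open Vale.Agent.P155 Vale.Agent.P155.Q1 U902

/-- extended continuous mapping theorem with countably many conditions, all outputs -/
theorem pass_countable' {ι E Θ I : Type*} [Countable I] [Nonempty I] [PseudoMetricSpace E]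
    [MeasurableSpace Θ] (P : Measure Θ)
    [IsProbabilityMeasure P] {D : ℕ → Finset ι} {Y : ℕ → ι → E} {Z : Θ → E}
    (hZ : ∀ F : E → ℝ, Continuous F → AEStronglyMeasurable (fun x => F (Z x)) P)
    (hLIM : ∀ F : E → ℝ, Continuous F → (∃ C, ∀ y, |F y| ≤ C) →
      Tendsto (fun n => K.avg (D n) (fun i => F (Y n i))) atTop (𝓝 (∫ x, F (Z x) ∂P)))
    {Cd : I → ℕ → ℕ → ι → Prop}
    (hC : ∀ i, ∀ ε > 0, ∃ c, ∀ᶠ n in atTop, K.avg (D n) (fun a => fails (Cd i c n a)) ≤ ε)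
    {Φn : ℕ → ι → ℝ} {Φ : Θ → ℝ} {M : ℝ} (hM : ∀ n, ∀ i ∈ D n, |Φn n i| ≤ M)
    (hlim : ∀ᵐ x ∂P, ∀ (n : ℕ → ℕ) (ω : ℕ → ι), Tendsto n atTop atTop →
      (∀ j, ω j ∈ D (n j)) → (∀ i, ∃ c, ∀ᶠ j in atTop, Cd i c (n j) (ω j)) →
      Tendsto (fun j => Y (n j) (ω j)) atTop (𝓝 (Z x)) →
      Tendsto (fun j => Φn (n j) (ω j)) atTop (𝓝 (Φ x))) :
    AEStronglyMeasurable Φ P ∧ Tendsto (fun n => K.avg (D n) (Φn n)) atTop (𝓝 (∫ x, Φ x ∂P)) ∧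
      ∀ᵐ x ∂P, ∃ (n : ℕ → ℕ) (ω : ℕ → ι), Tendsto n atTop atTop ∧ (∀ j, ω j ∈ D (n j)) ∧
        (∀ i, ∃ c, ∀ᶠ j in atTop, Cd i c (n j) (ω j)) ∧
        Tendsto (fun j => Y (n j) (ω j)) atTop (𝓝 (Z x)) := by
  obtain ⟨f, hf⟩ := exists_surjective_nat I
  obtain ⟨h1, h2, h3⟩ := pass P hZ hLIM (Cd := fun i => Cd (f i)) (fun i => hC (f i)) hM (Φ := Φ)
    (by
      filter_upwards [hlim] with x hx n ω hn hω hcd hY
      refine hx n ω hn hω (fun i => ?_) hY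
      obtain ⟨i', rfl⟩ := hf i
      exact hcd i')
  refine ⟨h1, h2, ?_⟩
  filter_upwards [h3] with x hx
  obtain ⟨n, ω, hn, hω, hcd, hY⟩ := hx
  refine ⟨n, ω, hn, hω, fun i => ?_, hY⟩
  obtain ⟨i', rfl⟩ := hf i
  exact hcd i'

section Conditions

variable (Ω : Set ℂ) (S : TempApprox Ω)

/-- no pinches -/
def CdPin (p q : ℕ) (c n : ℕ) (ω : Conf) : Prop := ∀ v i, ω.1 v ≠ ω.2 v →
  (∀ u ∈ comp ω v, 1 / ((p : ℝ) + 1) <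
    Metric.infDist (Q1.pt (S.δ n) (S.a n) u) (frontier Ω)) →
  ¬ Pinch S n ω (1 / ((q : ℝ) + 1)) (1 / ((c : ℝ) + 1)) v i

/-- away from the boundary -/
def CdBdt (m0 : ℕ) (c n : ℕ) (ω : Conf) : Prop := ∀ v, ω.1 v ≠ ω.2 v →
  (∃ x ∈ comp ω v, ∃ y ∈ comp ω v, 1 / ((m0 : ℝ) + 1) ≤
    dist (Q1.pt (S.δ n) (S.a n) x) (Q1.pt (S.δ n) (S.a n) y)) →
  1 / ((c : ℝ) + 1) < Metric.infDist (Q1.pt (S.δ n) (S.a n) v) (frontier Ω)

/-- all conditions -/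
def CdX : CI ⊕ (ℕ × ℕ) ⊕ ℕ → ℕ → ℕ → Conf → Prop
  | .inl i => Cd Ω S i
  | .inr (.inl (p, q)) => CdPin Ω S p q
  | .inr (.inr m0) => CdBdt Ω S m0

end Conditions

variable {Ω : Set ℂ} {S : TempApprox Ω}

theorem far_mono {n : ℕ} {ω : Conf} {ρ ρ' : ℝ} {v : Pt} {m : ℕ} (h : Far S n ω ρ v m)
    (hρ : ρ' ≤ ρ) : Far S n ω ρ' v m := by
  obtain ⟨i, hi, i', hi', hd⟩ := h
  exact ⟨i, hi, i', hi', hρ.trans hd⟩

theorem pin_of {n : ℕ → ℕ} {ω : ℕ → Conf}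
    (hcd : ∀ p q, ∃ c, ∀ᶠ j in atTop, CdPin Ω S p q c (n j) (ω j)) (κ ρ : ℝ) (hκ : 0 < κ)
    (hρ : 0 < ρ) : ∃ η : ℝ, 0 < η ∧ ∀ᶠ j in atTop, ∀ v i, (ω j).1 v ≠ (ω j).2 v →
    (∀ u ∈ comp (ω j) v,
      κ < Metric.infDist (Q1.pt (S.δ (n j)) (S.a (n j)) u) (frontier Ω)) →
    ¬ Pinch S (n j) (ω j) ρ η v i := by
  obtain ⟨p, hp⟩ := exists_one_div_le hκ
  obtain ⟨q, hq⟩ := exists_one_div_le hρ
  obtain ⟨c, hc⟩ := hcd p q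
  refine ⟨1 / ((c : ℝ) + 1), by positivity, hc.mono fun j hj v i hv hd hpin => ?_⟩
  exact hj v i hv (fun u hu => hp.trans_lt (hd u hu))
    ⟨hpin.1, hpin.2.1, far_mono hpin.2.2.1 hq, far_mono hpin.2.2.2 hq⟩

theorem bdt_of {n : ℕ → ℕ} {ω : ℕ → Conf}
    (hcd : ∀ m0, ∃ c, ∀ᶠ j in atTop, CdBdt Ω S m0 c (n j) (ω j)) (ρ : ℝ) (hρ : 0 < ρ) :
    ∃ η : ℝ, 0 < η ∧ ∀ᶠ j in atTop, ∀ v, (ω j).1 v ≠ (ω j).2 v →
    (∃ x ∈ comp (ω j) v, ∃ y ∈ comp (ω j) v,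
      ρ ≤ dist (Q1.pt (S.δ (n j)) (S.a (n j)) x) (Q1.pt (S.δ (n j)) (S.a (n j)) y)) →
    η < Metric.infDist (Q1.pt (S.δ (n j)) (S.a (n j)) v) (frontier Ω) := by
  obtain ⟨m0, hm0⟩ := exists_one_div_le hρ
  obtain ⟨c, hc⟩ := hcd m0
  refine ⟨1 / ((c : ℝ) + 1), by positivity, hc.mono fun j hj v hv hd => ?_⟩
  obtain ⟨x, hx, y, hy, hd⟩ := hd
  exact hj v hv ⟨x, hx, y, hy, hm0.trans hd⟩

/-- the conditions along a sequence give a `Pre` sequence -/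
theorem pre_of (ho : IsOpen Ω) (hb : Bornology.IsBounded Ω)
    {n : ℕ → ℕ} {ω : ℕ → Conf} {G : ℕ → NonemptyCompacts ℂ} (hlim : Tendsto n atTop atTop)
    (hmem : ∀ j, ω j ∈ DD (S.T (n j)).V)
    (hgas : Tendsto (fun j => fun k => toNC (gasket (S.δ (n j)) (S.a (n j)) (S.T (n j)) k (ω j)))
      atTop (𝓝 G))
    (hzero : (G 0 : Set ℂ) = frontier Ω) (hnull : ∀ k, volume ((G k : Set ℂ) ∩ Ω) = 0)
    (hcd : ∀ i, ∃ c, ∀ᶠ j in atTop, CdX Ω S i c (n j) (ω j)) : Pre Ω S n ω G where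
  good := good_of ho hb hlim hmem hgas hzero hnull fun i => hcd (.inl i)
  pin := pin_of fun p q => hcd (.inr (.inl (p, q)))
  bdt := bdt_of fun m0 => hcd (.inr (.inr m0))

/-- a `Pre` sequence satisfies `BdL` -/
theorem Pre.bdL {n : ℕ → ℕ} {ω : ℕ → Conf} {G : ℕ → NonemptyCompacts ℂ} (h : Pre Ω S n ω G) :
    BdL S n ω := by
  intro ρ hρ
  obtain ⟨η, hη, he⟩ := h.bdt ρ hρ
  exact ⟨η, hη, he.mono fun j hj v hv hd => ⟨v, P155.L.same_refl _ v, hj v hv hd⟩⟩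

/-- the new conditions are tight -/
theorem pin_tight (hPIN : PIN) (ho : IsOpen Ω) (hb : Bornology.IsBounded Ω) (hne : Ω.Nonempty)
    (hsc : SimplyConnectedSpace Ω) (p q : ℕ) (ε : ℝ) (hε : 0 < ε) :
    ∃ c, ∀ᶠ n in atTop, K.avg (DD (S.T n).V) (fun ω => fails (CdPin Ω S p q c n ω)) ≤ ε := by
  obtain ⟨η, hη, hA⟩ := hPIN Ω ho hb hne hsc S (1 / ((p : ℝ) + 1)) (1 / ((q : ℝ) + 1))
    (by positivity) (by positivity) ε hε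
  obtain ⟨c, hc⟩ := exists_one_div_le hη
  refine ⟨c, hA.mono fun n hn => (avg_fails_le fun ω _ hq => ?_).trans hn⟩
  by_contra hcon
  refine hq fun v i hv hd hpin => ?_
  exact hcon ⟨v, i, hv, hd, hpin.mono hc⟩

theorem bdt_tight (hBDT : BDT) (ho : IsOpen Ω) (hb : Bornology.IsBounded Ω) (hne : Ω.Nonempty)
    (hsc : SimplyConnectedSpace Ω) (m0 : ℕ) (ε : ℝ) (hε : 0 < ε) :
    ∃ c, ∀ᶠ n in atTop, K.avg (DD (S.T n).V) (fun ω => fails (CdBdt Ω S m0 c n ω)) ≤ ε := by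
  obtain ⟨η, hη, hA⟩ := hBDT Ω ho hb hne hsc S (1 / ((m0 : ℝ) + 1)) (by positivity) ε hε
  obtain ⟨c, hc⟩ := exists_one_div_le hη
  refine ⟨c, hA.mono fun n hn => (avg_fails_le fun ω _ hq => ?_).trans hn⟩
  by_contra hcon
  refine hq fun v hv hd => ?_
  by_contra hlt
  push Not at hlt
  exact hcon ⟨v, hv, hlt.trans hc, hd⟩

/-- all conditions are tight -/
theorem cdX_tight (hPIN : PIN) (hBDT : BDT) (ho : IsOpen Ω) (hb : Bornology.IsBounded Ω)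
    (hne : Ω.Nonempty) (hsc : SimplyConnectedSpace Ω)
    (hCr : CROSS hor ∧ CROSS ver) (hFa : FAT hor ∧ FAT ver) (hTo : TOP hor ∧ TOP ver)
    (i : CI ⊕ (ℕ × ℕ) ⊕ ℕ) (ε : ℝ) (hε : 0 < ε) :
    ∃ c, ∀ᶠ n in atTop, K.avg (DD (S.T n).V) (fun ω => fails (CdX Ω S i c n ω)) ≤ ε := by
  rcases i with i | ⟨p, q⟩ | m0
  · exact cd_tight ho hb hne hsc S hCr hFa hTo (fun k {z z'} hz hz' {s ε} hs hε =>
      samep_of hPIN hBDT ho hb hne hsc S k hz hz' hs hε) i ε hε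
  · exact pin_tight hPIN ho hb hne hsc p q ε hε
  · exact bdt_tight hBDT ho hb hne hsc m0 ε hε

end Vale.Agent.P155.EX
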