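import Vale.Agent.P155.H878.DetIface
import Vale.Agent.P155.T211Q.Same

/-!
# P155, existence of nested CLE₄: interface with the lattice estimates

* `PIN`: the loops of diameter of order one, at a macroscopic distance from the boundary, have no
  pinch (inner or outer): no two points at distance `≤ η` which split the loop into two arcs of
  diameter `≥ ρ`;
* `BDT`: the loops of diameter `≥ ρ` stay at distance `> η` from the boundary.

`Pre`: a good sequence of configurations with the deterministic forms of both properties.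
-/

namespace Vale.Agent.P155.EX

open Topology Filter MeasureTheory TopologicalSpace Vale.Agent.P155 Vale.Agent.P155.Q1

/-- a pinch: `v` and `suc^[i] v` are at distance `≤ η` and both arcs of the loop between these
two points have two points at distance `≥ ρ` -/
def Pinch {Ω : Set ℂ} (S : TempApprox Ω) (n : ℕ) (ω : Conf) (ρ η : ℝ) (v : Pt) (i : ℕ) : Prop :=
  i ≤ (comp ω v).ncard ∧
  dist (pt (S.δ n) (S.a n) v) (pt (S.δ n) (S.a n) ((SW.suc ω)^[i] v)) ≤ η ∧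
  Far S n ω ρ v i ∧ Far S n ω ρ ((SW.suc ω)^[i] v) ((comp ω v).ncard - i)

/-- **PIN**: no pinches of the loops which stay at distance `> κ` from the boundary. -/
def PIN : Prop :=
  ∀ Ω : Set ℂ, IsOpen Ω → Bornology.IsBounded Ω → Ω.Nonempty → SimplyConnectedSpace Ω →
  ∀ S : TempApprox Ω, ∀ κ ρ : ℝ, 0 < κ → 0 < ρ → ∀ ε : ℝ, 0 < ε → ∃ η : ℝ, 0 < η ∧ ∀ᶠ n in atTop,
    Pr (S.T n).V (fun ω => ∃ v i, ω.1 v ≠ ω.2 v ∧
      (∀ u ∈ comp ω v, κ < Metric.infDist (pt (S.δ n) (S.a n) u) (frontier Ω)) ∧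
      Pinch S n ω ρ η v i) ≤ ε

/-- **BDT**: a loop of diameter `≥ ρ` stays away from the boundary. -/
def BDT : Prop :=
  ∀ Ω : Set ℂ, IsOpen Ω → Bornology.IsBounded Ω → Ω.Nonempty → SimplyConnectedSpace Ω →
  ∀ S : TempApprox Ω, ∀ ρ : ℝ, 0 < ρ → ∀ ε : ℝ, 0 < ε → ∃ η : ℝ, 0 < η ∧ ∀ᶠ n in atTop,
    Pr (S.T n).V (fun ω => ∃ v, ω.1 v ≠ ω.2 v ∧
      Metric.infDist (pt (S.δ n) (S.a n) v) (frontier Ω) ≤ η ∧
      ∃ x ∈ comp ω v, ∃ y ∈ comp ω v,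
        ρ ≤ dist (pt (S.δ n) (S.a n) x) (pt (S.δ n) (S.a n) y)) ≤ ε

/-- A good sequence whose loops have no pinches and stay away from the boundary. -/
structure Pre (Ω : Set ℂ) (S : TempApprox Ω) (n : ℕ → ℕ) (ω : ℕ → Conf)
    (G : ℕ → NonemptyCompacts ℂ) : Prop where
  good : Good Ω S n ω G
  pin : ∀ κ ρ : ℝ, 0 < κ → 0 < ρ → ∃ η : ℝ, 0 < η ∧ ∀ᶠ j in atTop, ∀ v i,
    (ω j).1 v ≠ (ω j).2 v →
    (∀ u ∈ comp (ω j) v,
      κ < Metric.infDist (pt (S.δ (n j)) (S.a (n j)) u) (frontier Ω)) →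
    ¬ Pinch S (n j) (ω j) ρ η v i
  bdt : ∀ ρ : ℝ, 0 < ρ → ∃ η : ℝ, 0 < η ∧ ∀ᶠ j in atTop, ∀ v, (ω j).1 v ≠ (ω j).2 v →
    (∃ x ∈ comp (ω j) v, ∃ y ∈ comp (ω j) v,
      ρ ≤ dist (pt (S.δ (n j)) (S.a (n j)) x) (pt (S.δ (n j)) (S.a (n j)) y)) →
    η < Metric.infDist (pt (S.δ (n j)) (S.a (n j)) v) (frontier Ω)

/-- the law of the bottlenecks (the hypothesis `hSame` of `Q1.cd_tight`) -/
def SAMEP (Ω : Set ℂ) (S : TempApprox Ω) : Prop :=
  ∀ (k : ℕ) {z z' : ℂ}, z ∈ Ω → z' ∈ Ω → ∀ {s ε : ℝ}, 0 < s → 0 < ε →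
    ∃ r > 0, ∀ᶠ n in atTop, Pr (S.T n).V (fun ω =>
      s ≤ Metric.infDist z (gasket (S.δ n) (S.a n) (S.T n) (k + 1) ω) ∧
      s ≤ Metric.infDist z' (gasket (S.δ n) (S.a n) (S.T n) (k + 1) ω) ∧
      T211Q.bott z z' (gasket (S.δ n) (S.a n) (S.T n) (k + 1) ω) ≤ r ∧
      T211Q.SameLev (k + 1) ω (K.cell (S.δ n) (S.a n) z) (K.cell (S.δ n) (S.a n) z')) < ε

end Vale.Agent.P155.EX
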