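import Vale.Agent.P155.EX.Bottle
import Vale.Agent.P155.EX.Iface
import Vale.Agent.P155.H878.Lat
import Vale.Agent.P155.H878.Coord
import Vale.Agent.P155.T211B.Simp

/-!
# P155, stage 2, block EX1: the lattice loops
-/

open Set Topology Metric Relation

namespace Vale.Agent.P155.EX

open Vale.Agent.P155 Vale.Agent.P155.Q1 LatCycle

variable {V : Finset Pt} {ω : Conf} {δ : ℝ} {a : ℂ} {T : Temp}

/-- the faces surrounded by a loop form a chain -/
theorem intr_chain (hω : ω ∈ DD V) {L : Set Pt} (hL : L ∈ Loops ω) {f g : Pt}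
    (hf : surr ω L f) (hg : surr ω L g) :
    ReflTransGen (fun p q => Adj p q ∧ p ∈ P155.L.intr ω L ∧ q ∈ P155.L.intr ω L) f g := by
  obtain ⟨γ, _, _, h3, _⟩ := A1.exists_cycle' hω hL
  have hf' : γ.inside f := (h3 f).1 hf
  have hg' : γ.inside g := (h3 g).1 hg
  have hr : γ.Reach f g := reach_of_inside_iff (by tauto)
  clear hg
  unfold Reach at hr
  induction hr with
  | refl => exact ReflTransGen.refl
  | @tail b c hb hs ih =>
    have hb1 : γ.inside b := hs.inside_iff.2 hg'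
    exact (ih hb1).tail ⟨hs.adj, (h3 b).2 hb1, (h3 c).2 hg'⟩

/-- every edge of a loop has a face on the outer side -/
theorem outer_face (hω : ω ∈ DD V) {v u : Pt} (hv : ω.1 v ≠ ω.2 v) (hu : u ∈ comp ω v) :
    ∃ F, side u (SW.suc ω u) F ∧ ¬ surr ω (comp ω v) F := by
  rw [← Vale.Agent.P155.L.cyc_verts hω hv] at hu
  obtain ⟨i, rfl⟩ := hu
  have hs : SW.suc ω ((Vale.Agent.P155.L.cyc hω hv).c i) =
        ω.1 ((Vale.Agent.P155.L.cyc hω hv).c i) ∨
      SW.suc ω ((Vale.Agent.P155.L.cyc hω hv).c i) =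
        ω.2 ((Vale.Agent.P155.L.cyc hω hv).c i) := by
    unfold SW.suc
    split_ifs
    · exact Or.inl rfl
    · exact Or.inr rfl
  rcases Vale.Agent.P155.L.cyc_partner hω hv i hs with h | h
  · obtain ⟨F, h1, h2⟩ := edge_outside (γ := Vale.Agent.P155.L.cyc hω hv) i
    refine ⟨F, ?_, fun h' => h2 ((Vale.Agent.P155.L.surr_iff hω hv F).1 h')⟩
    rw [h]
    exact h1
  · obtain ⟨F, h1, h2⟩ := edge_outside (γ := Vale.Agent.P155.L.cyc hω hv) (i - 1)
    refine ⟨F, ?_, fun h' => h2 ((Vale.Agent.P155.L.surr_iff hω hv F).1 h')⟩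
    rw [h]
    rw [sub_add_cancel] at h1
    exact side_comm.1 h1

theorem seg_mem_sqr (hδ : 0 < δ) {u w F : Pt} (h : side u w F) {t : ℝ} (h0 : 0 ≤ t) (h1 : t ≤ 1) :
    Q1.pt δ a u + (t : ℂ) * (Q1.pt δ a w - Q1.pt δ a u) ∈ sqr δ a F := by
  have hu := pt_mem_sqr (a := a) hδ h.1
  have hw := pt_mem_sqr (a := a) hδ h.2
  rw [KConn.mem_sqr hδ] at hu hw ⊢
  have e1 : KConn.gx δ a (Q1.pt δ a u + (t : ℂ) * (Q1.pt δ a w - Q1.pt δ a u)) =
      (1 - t) * KConn.gx δ a (Q1.pt δ a u) + t * KConn.gx δ a (Q1.pt δ a w) := by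
    unfold KConn.gx
    simp only [Complex.add_re, Complex.mul_re, Complex.ofReal_re, Complex.sub_re,
      Complex.ofReal_im, Complex.sub_im, zero_mul, sub_zero]
    field_simp
    ring
  have e2 : KConn.gy δ a (Q1.pt δ a u + (t : ℂ) * (Q1.pt δ a w - Q1.pt δ a u)) =
      (1 - t) * KConn.gy δ a (Q1.pt δ a u) + t * KConn.gy δ a (Q1.pt δ a w) := by
    unfold KConn.gy
    simp only [Complex.add_im, Complex.mul_im, Complex.ofReal_re, Complex.sub_re,
      Complex.ofReal_im, Complex.sub_im, zero_mul, add_zero]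
    field_simp
    ring
  rw [e1, e2]
  obtain ⟨a1, a2, a3, a4⟩ := hu
  obtain ⟨b1, b2, b3, b4⟩ := hw
  have ht : 0 ≤ 1 - t := by linarith
  refine ⟨?_, ?_, ?_, ?_⟩
  · nlinarith [mul_le_mul_of_nonneg_left a1 ht, mul_le_mul_of_nonneg_left b1 h0]
  · nlinarith [mul_le_mul_of_nonneg_left a2 ht, mul_le_mul_of_nonneg_left b2 h0]
  · nlinarith [mul_le_mul_of_nonneg_left a3 ht, mul_le_mul_of_nonneg_left b3 h0]
  · nlinarith [mul_le_mul_of_nonneg_left a4 ht, mul_le_mul_of_nonneg_left b4 h0]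

theorem lcurve_coe (δ : ℝ) (a : ℂ) (ω : Conf) (v : Pt) (t : ℝ) :
    (lcurve δ a ω v).c (t : S1) = poly (cyc δ a ω v) ((comp ω v).ncard * t) :=
  polyLoop_coe _ _ _ t

/-- the trace of a loop is disjoint from the open polygon of the loop -/
theorem lcurve_off (hδ : 0 < δ) (hω : ω ∈ DD V) {v : Pt} (hv : ω.1 v ≠ ω.2 v) (x : S1) :
    (lcurve δ a ω v).c x ∉ interior (region δ a (P155.L.intr ω (comp ω v))) := by
  obtain ⟨t, rfl⟩ := QuotientAddGroup.mk_surjective x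
  have e : (lcurve δ a ω v).c ((t : ℝ) : S1) = poly (cyc δ a ω v) ((comp ω v).ncard * t) :=
    lcurve_coe δ a ω v t
  show (lcurve δ a ω v).c ((t : ℝ) : S1) ∉ _
  rw [e]
  set τ : ℝ := (comp ω v).ncard * t with hτ
  have hvV := mem_V_of_loop hω hv
  obtain ⟨F, h1, h2⟩ := outer_face hω hv (cycP_comp ω v ⌊τ⌋)
  rw [← cycP_succ hω hvV] at h1
  refine KConn.notMem_interior_region hδ (f := F) h2 ?_
  unfold poly
  rw [cyc_eq, cyc_eq]
  exact seg_mem_sqr hδ h1 (by linarith [Int.floor_le τ]) (by linarith [Int.lt_floor_add_one τ])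

theorem mem_open_poly (hδ : 0 < δ) (hω : ω ∈ DD V) {L : Set Pt} (hL : L ∈ Loops ω) {z : ℂ}
    (hz : surrZ δ a ω L z) (hfar : ∀ u ∈ L, 2 * δ < dist z (Q1.pt δ a u)) :
    z ∈ interior (region δ a (P155.L.intr ω L)) := by
  by_contra hcon
  obtain ⟨u, hu, hd⟩ := near_vert hδ hω hL (mem_region_of_surrZ hδ hz) hcon
  exact absurd (hfar u hu) (not_lt.2 hd)

/-- two points surrounded by a loop are joined off its trace -/
theorem joined_off (hδ : 0 < δ) (hω : ω ∈ DD V) {v : Pt} (hv : ω.1 v ≠ ω.2 v) {z z' : ℂ}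
    (hz : surrZ δ a ω (comp ω v) z) (hz' : surrZ δ a ω (comp ω v) z')
    (hfar : ∀ u ∈ comp ω v, 2 * δ < dist z (Q1.pt δ a u))
    (hfar' : ∀ u ∈ comp ω v, 2 * δ < dist z' (Q1.pt δ a u)) :
    JoinedIn (range (lcurve δ a ω v).c)ᶜ z z' := by
  have hL := comp_mem_Loops hv
  have h1 := mem_open_poly hδ hω hL hz hfar
  have h2 := mem_open_poly hδ hω hL hz' hfar'
  have hconn : IsConnected (interior (region δ a (P155.L.intr ω (comp ω v)))) :=
    T211B.isConnected_interior hδ ⟨_, hz⟩ fun f hf g hg => intr_chain hω hL hf hg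
  have hpc : IsPathConnected (interior (region δ a (P155.L.intr ω (comp ω v)))) :=
    isOpen_interior.isConnected_iff_isPathConnected.1 hconn
  refine (hpc.joinedIn z h1 z' h2).mono ?_
  rintro w hw ⟨x, rfl⟩
  exact lcurve_off hδ hω hv x hw

end Vale.Agent.P155.EX
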