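import Vale.Agent.P155.H878.Loops

/-!
# P155, existence half, EX2: monotone-light factorisation of a loop

`light` : a nonconstant loop `g` such that `g s = g t` only if `g` is constant on one of the two
arcs between `s` and `t` has the trace of an injective loop.
-/

namespace Vale.Agent.P155.EX

open Set Filter Topology Function TopologicalSpace Vale.Agent.P155.Q1

/-- running maximum of the distance to `Γ p` on `[p, t]` -/
noncomputable def rmax (Γ : ℝ → ℂ) (p t : ℝ) : ℝ :=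
  sSup ((fun u : ℝ => ‖Γ (p + u * max 0 (t - p)) - Γ p‖) '' Icc 0 1)

theorem rmax_cont {Γ : ℝ → ℂ} (hΓ : Continuous Γ) (p : ℝ) : Continuous (rmax Γ p) := by
  have h : Continuous (fun q : ℝ × ℝ => ‖Γ (p + q.2 * max 0 (q.1 - p)) - Γ p‖) := by fun_prop
  exact (isCompact_Icc (a := (0 : ℝ)) (b := 1)).continuous_sSup
    (f := fun t u : ℝ => ‖Γ (p + u * max 0 (t - p)) - Γ p‖) h

theorem rmax_bdd {Γ : ℝ → ℂ} (hΓ : Continuous Γ) (p t : ℝ) :
    BddAbove ((fun u : ℝ => ‖Γ (p + u * max 0 (t - p)) - Γ p‖) '' Icc 0 1) :=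
  (isCompact_Icc.image (by fun_prop)).bddAbove

theorem rmax_ne (Γ : ℝ → ℂ) (p t : ℝ) :
    ((fun u : ℝ => ‖Γ (p + u * max 0 (t - p)) - Γ p‖) '' Icc 0 1).Nonempty :=
  (nonempty_Icc.2 zero_le_one).image _

theorem le_rmax {Γ : ℝ → ℂ} (hΓ : Continuous Γ) {p t x : ℝ} (h1 : p ≤ x) (h2 : x ≤ t) :
    ‖Γ x - Γ p‖ ≤ rmax Γ p t := by
  have hpt : p ≤ t := h1.trans h2
  rcases eq_or_lt_of_le hpt with h | h
  · subst h
    have : x = p := le_antisymm h2 h1
    subst this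
    rw [sub_self, norm_zero]
    exact le_csSup_of_le (rmax_bdd hΓ x x) ⟨0, ⟨le_rfl, zero_le_one⟩, rfl⟩ (norm_nonneg _)
  · refine le_csSup (rmax_bdd hΓ p t) ⟨(x - p) / (t - p), ⟨?_, ?_⟩, ?_⟩
    · exact div_nonneg (by linarith) (by linarith)
    · rw [div_le_one (by linarith)]
      linarith
    · show ‖Γ (p + (x - p) / (t - p) * max 0 (t - p)) - Γ p‖ = _
      rw [max_eq_right (by linarith), div_mul_cancel₀ _ (by linarith)]
      congr 3
      ring

theorem rmax_le {Γ : ℝ → ℂ} {p t c : ℝ} (h0 : 0 ≤ c)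
    (h : ∀ x, p ≤ x → x ≤ t → ‖Γ x - Γ p‖ ≤ c) : rmax Γ p t ≤ c := by
  refine csSup_le (rmax_ne Γ p t) ?_
  rintro _ ⟨u, ⟨hu0, hu1⟩, rfl⟩
  show ‖Γ (p + u * max 0 (t - p)) - Γ p‖ ≤ c
  rcases le_total p t with hpt | hpt
  · rw [max_eq_right (by linarith)]
    refine h _ ?_ ?_
    · nlinarith
    · nlinarith
  · rw [max_eq_left (by linarith), mul_zero, add_zero, sub_self, norm_zero]
    exact h0

theorem rmax_nonneg {Γ : ℝ → ℂ} (hΓ : Continuous Γ) (p t : ℝ) : 0 ≤ rmax Γ p t :=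
  le_csSup_of_le (rmax_bdd hΓ p t) ⟨0, ⟨le_rfl, zero_le_one⟩, rfl⟩ (norm_nonneg _)

theorem rmax_mono {Γ : ℝ → ℂ} (hΓ : Continuous Γ) (p : ℝ) : Monotone (rmax Γ p) := by
  intro s t hst
  exact rmax_le (rmax_nonneg hΓ p t) fun x h1 h2 => le_rmax hΓ h1 (h2.trans hst)

theorem rmax_const {Γ : ℝ → ℂ} (hΓ : Continuous Γ) {s t : ℝ} (hst : s ≤ t)
    (h : ∀ x ∈ Icc s t, Γ x = Γ s) (p : ℝ) : rmax Γ p t = rmax Γ p s := by
  refine le_antisymm (rmax_le (rmax_nonneg hΓ p s) fun x h1 h2 => ?_) (rmax_mono hΓ p hst)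
  rcases le_total x s with hx | hx
  · exact le_rmax hΓ h1 hx
  · rcases le_total p s with hp | hp
    · rw [h x ⟨hx, h2⟩]
      exact le_rmax hΓ hp le_rfl
    · rw [h x ⟨hx, h2⟩, h p ⟨hp, h1.trans h2⟩, sub_self, norm_zero]
      exact rmax_nonneg hΓ p s

/-- the parameter -/
noncomputable def rr (Γ : ℝ → ℂ) (t : ℝ) : ℝ :=
  ∑' k : ℕ, (1 / 2 : ℝ) ^ k * min 1 (rmax Γ (denseSeq ℝ k) t)

theorem rr_summable {Γ : ℝ → ℂ} (hΓ : Continuous Γ) (t : ℝ) :
    Summable fun k : ℕ => (1 / 2 : ℝ) ^ k * min 1 (rmax Γ (denseSeq ℝ k) t) := by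
  refine Summable.of_nonneg_of_le (fun k => ?_) (fun k => ?_) summable_geometric_two
  · exact mul_nonneg (by positivity) (le_min zero_le_one (rmax_nonneg hΓ _ _))
  · calc (1 / 2 : ℝ) ^ k * min 1 (rmax Γ (denseSeq ℝ k) t) ≤ (1 / 2 : ℝ) ^ k * 1 :=
        mul_le_mul_of_nonneg_left (min_le_left _ _) (by positivity)
      _ = _ := mul_one _

theorem rr_cont {Γ : ℝ → ℂ} (hΓ : Continuous Γ) : Continuous (rr Γ) := by
  refine continuous_tsum (fun k => ?_) summable_geometric_two (fun k t => ?_)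
  · exact continuous_const.mul (continuous_const.min (rmax_cont hΓ _))
  · rw [Real.norm_eq_abs, abs_of_nonneg
      (mul_nonneg (by positivity) (le_min zero_le_one (rmax_nonneg hΓ _ _)))]
    calc (1 / 2 : ℝ) ^ k * min 1 (rmax Γ (denseSeq ℝ k) t) ≤ (1 / 2 : ℝ) ^ k * 1 :=
        mul_le_mul_of_nonneg_left (min_le_left _ _) (by positivity)
      _ = _ := mul_one _

theorem rr_mono {Γ : ℝ → ℂ} (hΓ : Continuous Γ) : Monotone (rr Γ) := fun s t hst =>
  (rr_summable hΓ s).tsum_le_tsum (fun k => mul_le_mul_of_nonneg_left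
    (min_le_min le_rfl (rmax_mono hΓ _ hst)) (by positivity)) (rr_summable hΓ t)

theorem rr_const {Γ : ℝ → ℂ} (hΓ : Continuous Γ) {s t : ℝ} (hst : s ≤ t)
    (h : ∀ x ∈ Icc s t, Γ x = Γ s) : rr Γ t = rr Γ s := by
  unfold rr
  congr 1
  funext k
  rw [rmax_const hΓ hst h]

theorem const_of_rr {Γ : ℝ → ℂ} (hΓ : Continuous Γ) {s t : ℝ} (hst : s ≤ t)
    (h : rr Γ t = rr Γ s) : ∀ x ∈ Icc s t, Γ x = Γ s := by
  -- all the terms agree
  have hterm : ∀ k, min 1 (rmax Γ (denseSeq ℝ k) t) = min 1 (rmax Γ (denseSeq ℝ k) s) := by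
    intro k
    by_contra hne
    have hle : min 1 (rmax Γ (denseSeq ℝ k) s) ≤ min 1 (rmax Γ (denseSeq ℝ k) t) :=
      min_le_min le_rfl (rmax_mono hΓ _ hst)
    have hlt : min 1 (rmax Γ (denseSeq ℝ k) s) < min 1 (rmax Γ (denseSeq ℝ k) t) :=
      lt_of_le_of_ne hle (Ne.symm hne)
    have : rr Γ s < rr Γ t := (rr_summable hΓ s).tsum_lt_tsum (i := k)
      (fun j => mul_le_mul_of_nonneg_left (min_le_min le_rfl (rmax_mono hΓ _ hst)) (by positivity))
      (mul_lt_mul_of_pos_left hlt (by positivity)) (rr_summable hΓ t)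
    linarith
  -- `Γ` is constant on `[p, t]` for the points `p` of the dense sequence in `(s, t)`
  have hp : ∀ k, s ≤ denseSeq ℝ k → ∀ x, denseSeq ℝ k ≤ x → x ≤ t → Γ x = Γ (denseSeq ℝ k) := by
    intro k hk x h1 h2
    have h0 : rmax Γ (denseSeq ℝ k) s = 0 := by
      refine le_antisymm (rmax_le le_rfl fun y h3 h4 => ?_) (rmax_nonneg hΓ _ _)
      have : y = denseSeq ℝ k := le_antisymm (h4.trans hk) h3
      rw [this, sub_self, norm_zero]
    have h3 := hterm k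
    rw [h0, min_eq_right zero_le_one] at h3
    have h4 : rmax Γ (denseSeq ℝ k) t = 0 := by
      rcases le_total 1 (rmax Γ (denseSeq ℝ k) t) with h5 | h5
      · rw [min_eq_left h5] at h3
        exact absurd h3 one_ne_zero
      · rwa [min_eq_right h5] at h3
    have h5 := le_rmax hΓ h1 h2
    rw [h4] at h5
    exact sub_eq_zero.1 (norm_le_zero_iff.1 h5)
  -- `Γ` is constant on `(s, t]`
  have hx : ∀ x, s < x → x ≤ t → Γ x = Γ t := by
    intro x h1 h2
    obtain ⟨y, ⟨k, rfl⟩, hy1, hy2⟩ := (denseRange_denseSeq ℝ).exists_between h1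
    rw [hp k hy1.le x hy2.le h2, hp k hy1.le t (hy2.le.trans h2) le_rfl]
  rcases eq_or_lt_of_le hst with h0 | h0
  · subst h0
    intro x hx'
    rw [le_antisymm hx'.2 hx'.1]
  have hs : Γ s = Γ t := by
    have h1 : Tendsto Γ (𝓝[>] s) (𝓝 (Γ s)) := hΓ.continuousAt.continuousWithinAt
    have h2 : Tendsto Γ (𝓝[>] s) (𝓝 (Γ t)) := by
      refine tendsto_const_nhds.congr' ?_
      filter_upwards [Ioc_mem_nhdsGT h0] with x hx'
      exact (hx x hx'.1 hx'.2).symm
    exact tendsto_nhds_unique h1 h2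
  intro x hx'
  rcases eq_or_lt_of_le hx'.1 with h1 | h1
  · rw [← h1]
  · rw [hx x h1 hx'.2, hs]

/-- **Monotone-light factorisation.** -/
theorem light (g : PL) (h0 : 0 < g.diam)
    (h : ∀ s t : ℝ, s ≤ t → t < s + 1 → g.c (s : S1) = g.c (t : S1) →
      (∀ x ∈ Icc s t, g.c (x : S1) = g.c (s : S1)) ∨
        (∀ x ∈ Icc t (s + 1), g.c (x : S1) = g.c (s : S1))) :
    ∃ J : PL, Injective J.c ∧ range J.c = range g.c := by
  set Γ : ℝ → ℂ := fun t => g.c (t : S1) with hΓdef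
  have hΓ : Continuous Γ := g.c.continuous.comp (AddCircle.continuous_mk' 1)
  have hper : ∀ t, Γ (t + 1) = Γ t := fun t => by
    simp only [hΓdef]
    rw [AddCircle.coe_add_period]
  -- nonconstant
  have hne : rr Γ 0 < rr Γ 1 := by
    refine lt_of_le_of_ne (rr_mono hΓ zero_le_one) fun he => ?_
    have h1 := const_of_rr hΓ zero_le_one he.symm
    have h2 : g.diam ≤ 0 := by
      refine Metric.diam_le_of_forall_dist_le le_rfl ?_
      have h3 : ∀ a : S1, g.c a = Γ 0 := by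
        intro a
        obtain ⟨t, ht, rfl⟩ := AddCircle.coe_image_Icc_eq (1 : ℝ) 0 ▸ mem_univ a
        rw [zero_add] at ht
        exact h1 t ht
      rintro _ ⟨a, rfl⟩ _ ⟨b, rfl⟩
      rw [h3 a, h3 b, dist_self]
    linarith
  set L := rr Γ 1 - rr Γ 0 with hL
  have hL0 : 0 < L := by linarith
  set r : ℝ → ℝ := fun t => (rr Γ t - rr Γ 0) / L with hr
  have hrc : Continuous r := ((rr_cont hΓ).sub continuous_const).div_const _
  have hrm : Monotone r := fun s t hst =>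
    div_le_div_of_nonneg_right (by linarith [rr_mono hΓ hst]) hL0.le
  have hr0 : r 0 = 0 := by simp only [hr, sub_self, zero_div]
  have hr1 : r 1 = 1 := by simp only [hr]; exact div_self hL0.ne'
  have hreq : ∀ s t, r s = r t → rr Γ s = rr Γ t := by
    intro s t he
    simp only [hr] at he
    rw [div_left_inj' hL0.ne'] at he
    linarith
  have hreq' : ∀ s t, rr Γ s = rr Γ t → r s = r t := by
    intro s t he
    simp only [hr, he]
  -- the circle map
  set R : S1 → S1 := AddCircle.liftIco 1 0 (fun t : ℝ => ((r t : ℝ) : S1)) with hR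
  have hRc : Continuous R := by
    refine AddCircle.liftIco_zero_continuous ?_ ?_
    · rw [hr0, hr1]
      exact (AddCircle.coe_period (1 : ℝ)).symm ▸ (by simp)
    · exact ((AddCircle.continuous_mk' 1).comp hrc).continuousOn
  have hRap : ∀ t ∈ Ico (0 : ℝ) 1, R (t : S1) = ((r t : ℝ) : S1) := fun t ht =>
    AddCircle.liftIco_zero_coe_apply ht
  have hrep : ∀ a : S1, ∃ t ∈ Ico (0 : ℝ) 1, (t : S1) = a := by
    intro a
    have h1 : a ∈ ((fun t : ℝ => (t : S1)) '' Ico 0 (0 + 1)) := by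
      rw [AddCircle.coe_image_Ico_eq]
      exact mem_univ a
    obtain ⟨t, ht, hta⟩ := h1
    rw [zero_add] at ht
    exact ⟨t, ht, hta⟩
  have hRs : Surjective R := by
    intro y
    obtain ⟨u, hu, rfl⟩ := hrep y
    obtain ⟨t, ht, htu⟩ := intermediate_value_Icc zero_le_one hrc.continuousOn
      (show u ∈ Icc (r 0) (r 1) by rw [hr0, hr1]; exact ⟨hu.1, hu.2.le⟩)
    have ht1 : t < 1 := by
      refine lt_of_le_of_ne ht.2 fun h1 => ?_
      rw [h1, hr1] at htu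
      exact absurd htu hu.2.ne'
    exact ⟨(t : S1), by rw [hRap t ⟨ht.1, ht1⟩, htu]⟩
  have hr01 : ∀ t ∈ Ico (0 : ℝ) 1, 0 ≤ r t ∧ r t ≤ 1 := fun t ht =>
    ⟨hr0 ▸ hrm ht.1, hr1 ▸ hrm ht.2.le⟩
  have hone : ((1 : ℝ) : S1) = ((0 : ℝ) : S1) := by
    rw [AddCircle.coe_period]
    simp
  -- `R a = R b → g a = g b`
  have key1 : ∀ s ∈ Ico (0 : ℝ) 1, ∀ t ∈ Ico (0 : ℝ) 1, s ≤ t →
      ((r s : ℝ) : S1) = ((r t : ℝ) : S1) → Γ s = Γ t := by
    intro s hs t ht hst he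
    have hrs := hr01 s hs
    have hrt := hr01 t ht
    have hle := hrm hst
    have hsame : r s = r t → Γ s = Γ t := fun h1 =>
      (const_of_rr hΓ hst (hreq s t h1).symm t ⟨hst, le_rfl⟩).symm
    rcases lt_or_eq_of_le hrt.2 with h1 | h1
    · apply hsame
      exact (AddCircle.coe_eq_coe_iff_of_mem_Ico (a := (0 : ℝ)) (p := 1)
        (by rw [zero_add]; exact ⟨hrs.1, by linarith⟩)
        (by rw [zero_add]; exact ⟨hrt.1, h1⟩)).1 he
    · rcases lt_or_eq_of_le hrs.2 with h2 | h2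
      · rw [h1, hone] at he
        have h3 : r s = 0 := (AddCircle.coe_eq_coe_iff_of_mem_Ico (a := (0 : ℝ)) (p := 1)
          (by rw [zero_add]; exact ⟨hrs.1, h2⟩)
          (by rw [zero_add]; exact ⟨le_rfl, one_pos⟩)).1 he
        have h4 := const_of_rr hΓ hs.1 (hreq s 0 (h3.trans hr0.symm)) s ⟨hs.1, le_rfl⟩
        have h5 := const_of_rr hΓ ht.2.le (hreq 1 t (hr1.trans h1.symm)) 1 ⟨ht.2.le, le_rfl⟩
        rw [h4, ← h5]
        have := hper 0
        rw [zero_add] at this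
        exact this.symm
      · exact hsame (h2.trans h1.symm)
  -- `g a = g b → R a = R b`
  have key2 : ∀ s ∈ Ico (0 : ℝ) 1, ∀ t ∈ Ico (0 : ℝ) 1, s ≤ t → Γ s = Γ t →
      ((r s : ℝ) : S1) = ((r t : ℝ) : S1) := by
    intro s hs t ht hst he
    rcases h s t hst (by linarith [hs.1, ht.2]) he with h1 | h1
    · rw [hreq' t s (rr_const hΓ hst h1)]
    · have h2 : ∀ x ∈ Icc t (s + 1), Γ x = Γ s := h1
      have h3 : rr Γ 1 = rr Γ t := rr_const hΓ ht.2.le fun x hx => by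
        rw [h2 x ⟨hx.1, by linarith [hx.2, hs.1]⟩, he]
      have h4 : rr Γ s = rr Γ 0 := rr_const hΓ hs.1 fun x hx => by
        have h5 := h2 (x + 1) ⟨by linarith [hx.1, ht.2], by linarith [hx.2]⟩
        have h6 := h2 (0 + 1) ⟨by linarith [ht.2], by linarith [hs.1]⟩
        rw [hper] at h5 h6
        rw [h5, h6]
      rw [hreq' s 0 h4, hr0, ← hreq' 1 t h3, hr1, hone]
  have hfac : ∀ a b : S1, R a = R b ↔ g.c a = g.c b := by
    intro a b
    obtain ⟨s, hs, rfl⟩ := hrep a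
    obtain ⟨t, ht, rfl⟩ := hrep b
    rw [hRap s hs, hRap t ht]
    rcases le_total s t with hst | hst
    · exact ⟨key1 s hs t ht hst, key2 s hs t ht hst⟩
    · exact ⟨fun he => (key1 t ht s hs hst he.symm).symm, fun he => (key2 t ht s hs hst he.symm).symm⟩
  have hq : IsQuotientMap R := hRc.isClosedMap.isQuotientMap hRc hRs
  set Rc : C(S1, S1) := ⟨R, hRc⟩ with hRcdef
  have hq' : IsQuotientMap Rc := hq
  set J : PL := ⟨hq'.lift g.c (fun a b hab => (hfac a b).1 hab)⟩ with hJ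
  have hJap : ∀ a, J.c (R a) = g.c a := by
    intro a
    have h1 := congrArg (fun F : C(S1, ℂ) => F a)
      (hq'.lift_comp g.c (fun a b hab => (hfac a b).1 hab))
    exact h1
  refine ⟨J, ?_, ?_⟩
  · intro y y' hy
    obtain ⟨a, rfl⟩ := hRs y
    obtain ⟨b, rfl⟩ := hRs y'
    rw [hJap, hJap] at hy
    exact (hfac a b).2 hy
  · ext z
    constructor
    · rintro ⟨y, rfl⟩
      obtain ⟨a, rfl⟩ := hRs y
      exact ⟨a, (hJap a).symm⟩
    · rintro ⟨a, rfl⟩
      exact ⟨R a, hJap a⟩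

end Vale.Agent.P155.EX
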