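import Mathlib

/-!
# P153, block SL-TOP, part 1: continuous logarithms on sets

`LogOn K f` : the function `f` has a continuous logarithm on the set `K`.
-/

open Set Topology

namespace Vale.Agent.P155.EX.Top

/-- `f` has a continuous logarithm on `K`. -/
def LogOn {X : Type*} [TopologicalSpace X] (K : Set X) (f : X → ℂ) : Prop :=
  ∃ F : X → ℂ, ContinuousOn F K ∧ ∀ x ∈ K, Complex.exp (F x) = f x

section Basic

variable {X Y : Type*} [TopologicalSpace X] [TopologicalSpace Y] {K A B : Set X} {f g : X → ℂ}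

theorem LogOn.mono (h : LogOn K f) {K' : Set X} (hK : K' ⊆ K) : LogOn K' f := by
  obtain ⟨F, hF, hF'⟩ := h
  exact ⟨F, hF.mono hK, fun x hx => hF' x (hK hx)⟩

theorem LogOn.congr (h : LogOn K f) (hfg : ∀ x ∈ K, g x = f x) : LogOn K g := by
  obtain ⟨F, hF, hF'⟩ := h
  exact ⟨F, hF, fun x hx => by rw [hF' x hx, hfg x hx]⟩

theorem LogOn.ne_zero (h : LogOn K f) {x : X} (hx : x ∈ K) : f x ≠ 0 := by
  obtain ⟨F, -, hF'⟩ := h
  rw [← hF' x hx]
  exact Complex.exp_ne_zero _

theorem LogOn.continuousOn (h : LogOn K f) : ContinuousOn f K := by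
  obtain ⟨F, hF, hF'⟩ := h
  exact (Complex.continuous_exp.comp_continuousOn hF).congr fun x hx => (hF' x hx).symm

theorem LogOn.mul (hf : LogOn K f) (hg : LogOn K g) : LogOn K (fun x => f x * g x) := by
  obtain ⟨F, hF, hF'⟩ := hf
  obtain ⟨G, hG, hG'⟩ := hg
  exact ⟨fun x => F x + G x, hF.add hG, fun x hx => by
    rw [Complex.exp_add, hF' x hx, hG' x hx]⟩

theorem LogOn.inv (hf : LogOn K f) : LogOn K (fun x => (f x)⁻¹) := by
  obtain ⟨F, hF, hF'⟩ := hf
  exact ⟨fun x => -F x, hF.neg, fun x hx => by rw [Complex.exp_neg, hF' x hx]⟩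

theorem LogOn.div (hf : LogOn K f) (hg : LogOn K g) : LogOn K (fun x => f x / g x) := by
  refine (hf.mul hg.inv).congr fun x _ => ?_
  exact div_eq_mul_inv _ _

theorem LogOn.zpow (hf : LogOn K f) (n : ℤ) : LogOn K (fun x => f x ^ n) := by
  obtain ⟨F, hF, hF'⟩ := hf
  exact ⟨fun x => n * F x, continuousOn_const.mul hF, fun x hx => by
    rw [Complex.exp_int_mul, hF' x hx]⟩

theorem logOn_const {c : ℂ} (hc : c ≠ 0) : LogOn K (fun _ => c) :=
  ⟨fun _ => Complex.log c, continuousOn_const, fun _ _ => Complex.exp_log hc⟩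

theorem logOn_of_slitPlane (hf : ContinuousOn f K) (h : ∀ x ∈ K, f x ∈ Complex.slitPlane) :
    LogOn K f :=
  ⟨fun x => Complex.log (f x), hf.clog h, fun x hx =>
    Complex.exp_log (Complex.slitPlane_ne_zero (h x hx))⟩

theorem logOn_of_norm_sub_one_lt (hf : ContinuousOn f K) (h : ∀ x ∈ K, ‖f x - 1‖ < 1) :
    LogOn K f := by
  refine logOn_of_slitPlane hf fun x hx => ?_
  have := Complex.mem_slitPlane_of_norm_lt_one (h x hx)
  simpa using this

theorem LogOn.comp {L : Set Y} (hf : LogOn K f) {φ : Y → X} (hφ : ContinuousOn φ L)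
    (hm : MapsTo φ L K) : LogOn L (fun y => f (φ y)) := by
  obtain ⟨F, hF, hF'⟩ := hf
  exact ⟨fun y => F (φ y), hF.comp hφ hm, fun y hy => hF' _ (hm hy)⟩

theorem logOn_empty : LogOn (∅ : Set X) f := ⟨0, continuousOn_empty _, fun _ h => h.elim⟩

end Basic

/-- A continuous integer valued function on a preconnected set is constant. -/
theorem int_const {X : Type*} [TopologicalSpace X] {A : Set X} (hA : IsPreconnected A)
    {φ : X → ℝ} (hφ : ContinuousOn φ A) (hint : ∀ x ∈ A, ∃ n : ℤ, φ x = n) {x y : X}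
    (hx : x ∈ A) (hy : y ∈ A) : φ x = φ y := by
  have key : ∀ x ∈ A, ∀ y ∈ A, ¬ φ x < φ y := by
    intro x hx y hy hlt
    obtain ⟨n, hn⟩ := hint x hx
    obtain ⟨m, hm⟩ := hint y hy
    have himg := hA.image _ hφ
    have hnm : n < m := by
      rw [hn, hm] at hlt
      exact_mod_cast hlt
    have hnm' : (n : ℝ) + 1 ≤ m := by exact_mod_cast hnm
    have hmem : (n : ℝ) + 1 / 2 ∈ φ '' A := by
      refine himg.Icc_subset (mem_image_of_mem _ hx) (mem_image_of_mem _ hy) ?_
      rw [hn, hm]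
      constructor <;> linarith
    obtain ⟨z, hz, hz'⟩ := hmem
    obtain ⟨k, hk⟩ := hint z hz
    rw [hk] at hz'
    have h2 : (2 * k : ℝ) = 2 * n + 1 := by linarith
    have h3 : (2 * k : ℤ) = 2 * n + 1 := by exact_mod_cast h2
    omega
  exact le_antisymm (not_lt.1 (key y hy x hx)) (not_lt.1 (key x hx y hy))

/-- Two continuous logarithms of the same function on a preconnected set differ by a constant. -/
theorem log_diff_const {X : Type*} [TopologicalSpace X] {A : Set X} (hA : IsPreconnected A)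
    {F G : X → ℂ} (hF : ContinuousOn F A) (hG : ContinuousOn G A)
    (h : ∀ x ∈ A, Complex.exp (F x) = Complex.exp (G x)) {x y : X} (hx : x ∈ A) (hy : y ∈ A) :
    F x - G x = F y - G y := by
  have hpi : (2 * Real.pi * Complex.I : ℂ) ≠ 0 := Complex.two_pi_I_ne_zero
  have hc : ContinuousOn (fun x => ((F x - G x) / (2 * Real.pi * Complex.I)).re) A :=
    Complex.continuous_re.comp_continuousOn ((hF.sub hG).div_const _)
  have hint : ∀ x ∈ A, ∃ n : ℤ, F x - G x = n * (2 * Real.pi * Complex.I) := by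
    intro x hx
    obtain ⟨n, hn⟩ := Complex.exp_eq_exp_iff_exists_int.1 (h x hx)
    exact ⟨n, by rw [hn]; ring⟩
  have hval : ∀ x ∈ A, ∀ n : ℤ, F x - G x = n * (2 * Real.pi * Complex.I) →
      ((F x - G x) / (2 * Real.pi * Complex.I)).re = n := by
    intro x _ n hn
    rw [hn, mul_div_cancel_right₀ _ hpi]
    simp
  have := int_const hA hc (fun x hx => by
    obtain ⟨n, hn⟩ := hint x hx
    exact ⟨n, hval x hx n hn⟩) hx hy
  obtain ⟨n, hn⟩ := hint x hx
  obtain ⟨m, hm⟩ := hint y hy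
  rw [hval x hx n hn, hval y hy m hm] at this
  have h3 : n = m := by exact_mod_cast this
  rw [hn, hm, h3]

/-- Gluing of logarithms along a preconnected intersection. -/
theorem LogOn.union {X : Type*} [TopologicalSpace X] {A B : Set X} (hA : IsClosed A)
    (hB : IsClosed B) (hAB : IsPreconnected (A ∩ B)) {f : X → ℂ} (hfA : LogOn A f)
    (hfB : LogOn B f) : LogOn (A ∪ B) f := by
  classical
  obtain ⟨F, hF, hF'⟩ := hfA
  obtain ⟨G, hG, hG'⟩ := hfB
  obtain ⟨c, hc1, hc2⟩ : ∃ c : ℂ, Complex.exp c = 1 ∧ ∀ x ∈ A ∩ B, F x = G x + c := by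
    rcases (A ∩ B).eq_empty_or_nonempty with h | ⟨x₀, hx₀⟩
    · exact ⟨0, by simp, fun x hx => by rw [h] at hx; exact hx.elim⟩
    · refine ⟨F x₀ - G x₀, ?_, fun x hx => ?_⟩
      · rw [Complex.exp_sub, hF' x₀ hx₀.1, hG' x₀ hx₀.2, div_self]
        rw [← hF' x₀ hx₀.1]
        exact Complex.exp_ne_zero _
      · have := log_diff_const hAB (hF.mono inter_subset_left) (hG.mono inter_subset_right)
          (fun x hx => by rw [hF' x hx.1, hG' x hx.2]) hx hx₀
        rw [← this]
        ring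
  refine ⟨A.piecewise F (fun x => G x + c), ?_, ?_⟩
  · refine ContinuousOn.union_of_isClosed ?_ ?_ hA hB
    · exact hF.congr fun x hx => Set.piecewise_eq_of_mem _ _ _ hx
    · refine (hG.add (continuousOn_const (c := c))).congr fun x hx => ?_
      by_cases hxA : x ∈ A
      · rw [Set.piecewise_eq_of_mem _ _ _ hxA, hc2 x ⟨hxA, hx⟩]; rfl
      · rw [Set.piecewise_eq_of_notMem _ _ _ hxA]; rfl
  · intro x hx
    by_cases hxA : x ∈ A
    · rw [Set.piecewise_eq_of_mem _ _ _ hxA, hF' x hxA]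
    · rw [Set.piecewise_eq_of_notMem _ _ _ hxA, Complex.exp_add, hc1, mul_one,
        hG' x (hx.resolve_left hxA)]

/-! ### Spaces all of whose nonvanishing functions have logarithms -/

/-- Every nowhere vanishing continuous complex function on the set `K` has a continuous
logarithm. -/
def HasLogOn {X : Type*} [TopologicalSpace X] (K : Set X) : Prop :=
  ∀ f : X → ℂ, ContinuousOn f K → (∀ x ∈ K, f x ≠ 0) → LogOn K f

/-- Relation with the subtype. -/
theorem hasLogOn_of_subtype {X : Type*} [TopologicalSpace X] {K : Set X}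
    (h : ∀ f : C(K, ℂ), (∀ x, f x ≠ 0) → ∃ F : C(K, ℂ), ∀ x, Complex.exp (F x) = f x) :
    HasLogOn K := by
  classical
  intro f hf hf0
  obtain ⟨F, hF⟩ := h ⟨K.domRestrict f, continuousOn_iff_continuous_domRestrict.1 hf⟩
    (fun x => hf0 _ x.2)
  refine ⟨fun x => if hx : x ∈ K then F ⟨x, hx⟩ else 0, ?_, ?_⟩
  · rw [continuousOn_iff_continuous_domRestrict]
    refine F.continuous.congr fun x => ?_
    simp
  · intro x hx
    simp only [hx, dite_true]
    exact hF ⟨x, hx⟩

theorem hasLogOn_univ_of_simplyConnected (X : Type*) [TopologicalSpace X]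
    [SimplyConnectedSpace X] [LocallyPathConnectedSpace X] : HasLogOn (univ : Set X) := by
  intro f hf hf0
  obtain ⟨a₀⟩ : Nonempty X := inferInstance
  obtain ⟨F, ⟨-, hF⟩, -⟩ := Complex.isCoveringMapOn_exp.existsUnique_continuousMap_lifts
    ⟨f, continuousOn_univ.1 hf⟩
    (a₀ := a₀) (e₀ := Complex.log (f a₀)) (Complex.exp_log (hf0 a₀ (mem_univ _)))
    (fun a => by simpa using hf0 a (mem_univ _))
  exact ⟨F, F.continuous.continuousOn, fun x _ => congrFun hF x⟩

theorem hasLogOn_of_convex {E : Type*} [AddCommGroup E] [Module ℝ E] [TopologicalSpace E]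
    [IsTopologicalAddGroup E] [ContinuousSMul ℝ E] [LocallyConvexSpace ℝ E] {S : Set E}
    (hS : Convex ℝ S) : HasLogOn S := by
  rcases S.eq_empty_or_nonempty with rfl | hne
  · exact fun _ _ _ => logOn_empty
  · have : ContractibleSpace S := hS.contractibleSpace hne
    have : LocallyPathConnectedSpace S := hS.locallyPathConnectedSpace
    refine hasLogOn_of_subtype fun f hf => ?_
    obtain ⟨F, hF, hF'⟩ := hasLogOn_univ_of_simplyConnected S f f.continuous.continuousOn
      (fun x _ => hf x)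
    exact ⟨⟨F, continuousOn_univ.1 hF⟩, fun x => hF' x (mem_univ _)⟩

/-- Transport of `HasLogOn` along a continuous bijection with continuous inverse. -/
theorem HasLogOn.image {X Y : Type*} [TopologicalSpace X] [TopologicalSpace Y] {K : Set X}
    (hK : HasLogOn K) {φ : X → Y} {ψ : Y → X} (hφ : ContinuousOn φ K)
    (hψ : ContinuousOn ψ (φ '' K)) (h : ∀ x ∈ K, ψ (φ x) = x) : HasLogOn (φ '' K) := by
  intro f hf hf0
  have h1 : LogOn K (fun x => f (φ x)) :=
    hK _ (hf.comp hφ (mapsTo_image φ K)) fun x hx => hf0 _ (mem_image_of_mem _ hx)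
  refine (h1.comp (φ := ψ) hψ ?_).congr ?_
  · rintro _ ⟨x, hx, rfl⟩
    rw [h x hx]
    exact hx
  · rintro _ ⟨x, hx, rfl⟩
    simp only [h x hx]

/-- An injective continuous image of a compact set with logarithms has logarithms. -/
theorem HasLogOn.image_of_isCompact {X Y : Type*} [TopologicalSpace X] [TopologicalSpace Y]
    [T2Space Y] {K : Set X} (hK : HasLogOn K) (hc : IsCompact K) {φ : X → Y}
    (hφ : ContinuousOn φ K) (hinj : InjOn φ K) : HasLogOn (φ '' K) := by
  classical
  rcases K.eq_empty_or_nonempty with rfl | ⟨x₀, hx₀⟩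
  · rw [image_empty]
    exact fun _ _ _ => logOn_empty
  have : Nonempty X := ⟨x₀⟩
  refine hK.image hφ (ψ := Function.invFunOn φ K) ?_ (fun x hx => hinj.leftInvOn_invFunOn hx)
  have : CompactSpace K := isCompact_iff_compactSpace.1 hc
  have hcl : IsClosedEmbedding (K.domRestrict φ) :=
    (continuousOn_iff_continuous_domRestrict.1 hφ).isClosedEmbedding
      (injOn_iff_injective.1 hinj)
  -- closed sets pull back to closed sets
  rw [continuousOn_iff_isClosed]
  intro t ht
  refine ⟨φ '' (K ∩ t), ?_, ?_⟩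
  · have h2 : φ '' (K ∩ t) = (K.domRestrict φ) '' ((↑) ⁻¹' t) := by
      ext y
      constructor
      · rintro ⟨x, ⟨hx, hxt⟩, rfl⟩
        exact ⟨⟨x, hx⟩, hxt, rfl⟩
      · rintro ⟨⟨x, hx⟩, hxt, rfl⟩
        exact ⟨x, ⟨hx, hxt⟩, rfl⟩
    rw [h2]
    exact hcl.isClosedMap _ (ht.preimage continuous_subtype_val)
  · ext y
    constructor
    · rintro ⟨hy, x, hx, rfl⟩
      refine ⟨⟨x, ⟨hx, ?_⟩, rfl⟩, x, hx, rfl⟩
      have := hinj.leftInvOn_invFunOn hx
      rw [mem_preimage, this] at hy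
      exact hy
    · rintro ⟨⟨x, ⟨hx, hxt⟩, rfl⟩, -⟩
      refine ⟨?_, x, hx, rfl⟩
      rw [mem_preimage, hinj.leftInvOn_invFunOn hx]
      exact hxt

/-- An arc (injective continuous image of a compact interval) has logarithms. -/
theorem hasLogOn_arc {Y : Type*} [TopologicalSpace Y] [T2Space Y] {a b : ℝ} {γ : ℝ → Y}
    (hγ : ContinuousOn γ (Icc a b)) (hinj : InjOn γ (Icc a b)) : HasLogOn (γ '' Icc a b) :=
  (hasLogOn_of_convex (convex_Icc a b)).image_of_isCompact isCompact_Icc hγ hinj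

end Vale.Agent.P155.EX.Top
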