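import Vale.Agent.P155.EX.Asm
import Vale.Agent.P155.QQ.Asm
import Vale.Agent.P155.Ex795.FairOf
import Vale.Agent.P155.EXA878.Approx

/-!
# P155, stage 2: existence and uniqueness of the nested CLE₄ law, and convergence to it
-/

open Set Topology Metric Filter MeasureTheory TopologicalSpace

namespace Vale.Agent.P155.EX

open Vale.Agent.P155 Vale.Agent.P155.Q1

theorem isProb {Ω : Set ℂ} {μ : Measure LoopColl} (h : IsNestedCLE4 Ω μ) :
    IsProbabilityMeasure μ := by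
  obtain ⟨Θ, mΘ, P, G, ξ, Γ, hP, hm, rfl, -⟩ := h
  exact Measure.isProbabilityMeasure_map hm

/-- uniqueness of the law -/
def UNIQ : Prop := ∀ Ω : Set ℂ, IsOpen Ω → Bornology.IsBounded Ω → Ω.Nonempty →
  SimplyConnectedSpace Ω → ∀ _ : TempApprox Ω, ∀ μ ν : Measure LoopColl, IsNestedCLE4 Ω μ →
  IsNestedCLE4 Ω ν → μ = ν

/-- **Nested CLE₄ exists**, from the two lattice estimates. -/
theorem exists_nested_of (hPIN : PIN) (hBDT : BDT) (hJ : JORD) (hM : MEAS) {Ω : Set ℂ}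
    (ho : IsOpen Ω) (hb : Bornology.IsBounded Ω) (hne : Ω.Nonempty)
    (hsc : SimplyConnectedSpace Ω) : ∃ μ : Measure LoopColl, IsNestedCLE4 Ω μ := by
  obtain ⟨S⟩ := EXA.exists_approx Ω ho hb hne hsc
  obtain ⟨Θ, mΘ, P, G, ξ, h⟩ := Ex795.fair_of QQ.full ho hb hne hsc S
    (samep_of hPIN hBDT ho hb hne hsc S)
  exact ⟨_, (nested_of_fair QQ.full QQ.tight.1 QQ.tight.2.1 QQ.tight.2.2 hPIN hBDT hJ hM ho hb hne
    hsc S h).2⟩

/-- **Main theorem, modulo the inputs**: for every bounded simply connected domain there is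
exactly one nested CLE₄ law, and the double-dimer loops converge to it, for every Temperleyan
approximation of the domain. -/
theorem main_of (hPIN : PIN) (hBDT : BDT) (hJ : JORD) (hM : MEAS) (hU : UNIQ) (Ω : Set ℂ)
    (ho : IsOpen Ω) (hb : Bornology.IsBounded Ω) (hne : Ω.Nonempty)
    (hsc : SimplyConnectedSpace Ω) :
    Nonempty (TempApprox Ω) ∧ ∃ μ : Measure LoopColl, IsProbabilityMeasure μ ∧
      IsNestedCLE4 Ω μ ∧ (∀ ν, IsNestedCLE4 Ω ν → ν = μ) ∧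
      ∀ S : TempApprox Ω, ∀ F : LoopColl → ℝ, Continuous F → (∃ C, ∀ Γ, |F Γ| ≤ C) →
        Tendsto (fun n => Ex (S.T n).V (fun ω => F (LL (S.δ n) (S.a n) ω))) atTop
          (𝓝 (∫ Γ, F Γ ∂μ)) := by
  obtain ⟨μ, hμ⟩ := exists_nested_of hPIN hBDT hJ hM ho hb hne hsc
  obtain ⟨S⟩ := EXA.exists_approx Ω ho hb hne hsc
  exact ⟨⟨S⟩, μ, isProb hμ, hμ, fun ν hν => hU Ω ho hb hne hsc S ν μ hν hμ,
    fun S F hF hFb => QQ.q1 Ω ho hb hne hsc S μ hμ F hF hFb⟩

end Vale.Agent.P155.EX
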