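import Vale.Agent.P155.EX.Lat
import Vale.Agent.P155.E.Prob

/-!
# P155, stage 2, block EX1: loops without pinches have no bottlenecks (`SAMEP` from `PIN`, `BDT`)
-/

open Set Topology Metric Relation Filter

namespace Vale.Agent.P155.EX

open Vale.Agent.P155 Vale.Agent.P155.Q1 LatCycle

variable {V : Finset Pt} {ω : Conf} {δ : ℝ} {a : ℂ} {T : Temp}

/-- a loop around a point at distance `≥ s` from all its vertices has two vertices at distance
`≥ s / 2` -/
theorem exists_far_pair (hδ : 0 < δ) (hω : ω ∈ DD V) {L : Set Pt} (hL : L ∈ Loops ω) {z : ℂ}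
    {s : ℝ} (hz : surrZ δ a ω L z) (hfar : ∀ u ∈ L, s ≤ dist z (Q1.pt δ a u)) (h4 : 4 * δ < s) :
    ∃ x ∈ L, ∃ y ∈ L, s / 2 ≤ dist (Q1.pt δ a x) (Q1.pt δ a y) := by
  by_contra hcon
  push Not at hcon
  obtain ⟨u0, hu0⟩ := P155.L.loop_nonempty hL
  set p := Q1.pt δ a u0 with hp
  have hs : 0 < s := by linarith
  have hd : s ≤ ‖z - p‖ := by
    rw [← dist_eq_norm]
    exact hfar u0 hu0
  set f : ℝ → ℂ := fun t => z + (t : ℂ) * (z - p) with hf
  have hfc : Continuous f := by fun_prop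
  have hpre : IsPreconnected (f '' Ici 0) := isPreconnected_Ici.image f hfc.continuousOn
  have hdist : ∀ w ∈ f '' Ici 0, ∀ u ∈ L, 2 * δ < dist w (Q1.pt δ a u) := by
    rintro _ ⟨t, ht, rfl⟩ u hu
    have ht : 0 ≤ t := ht
    have h1 := hcon u0 hu0 u hu
    have h2 : dist (f t) p = (1 + t) * ‖z - p‖ := by
      have e : f t - p = ((1 + t : ℝ) : ℂ) * (z - p) := by
        simp only [hf]
        push_cast
        ring
      rw [dist_eq_norm, e, norm_mul, Complex.norm_real, Real.norm_of_nonneg (by linarith)]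
    have h3 := dist_triangle (f t) (Q1.pt δ a u) p
    rw [dist_comm (Q1.pt δ a u)] at h3
    have h4 : s ≤ (1 + t) * ‖z - p‖ := by nlinarith [norm_nonneg (z - p)]
    linarith
  have hz0 : z ∈ f '' Ici 0 := ⟨0, by simp, by simp [hf]⟩
  have hall : f '' Ici 0 ⊆ region δ a (P155.L.intr ω L) := by
    intro w hw
    exact mem_region_of_surrZ hδ (surrZ_conn hδ hω hL hpre hdist hz0 hw hz)
  have hb : Bornology.IsBounded (f '' Ici 0) :=
    (KConn.isCompact_region hδ (P155.L.intr_finite hω hL)).isBounded.subset hall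
  obtain ⟨M, hM⟩ := hb.exists_norm_le
  have hM0 : 0 ≤ M := (norm_nonneg z).trans (hM z hz0)
  have h1 := hM (f ((2 * M + 1) / s)) ⟨_, by
    show (0 : ℝ) ≤ (2 * M + 1) / s
    positivity, rfl⟩
  have h2 : ‖(((2 * M + 1) / s : ℝ) : ℂ) * (z - p)‖ ≤ 2 * M := by
    have e : (((2 * M + 1) / s : ℝ) : ℂ) * (z - p) = f ((2 * M + 1) / s) - z := by
      simp only [hf]
      ring
    rw [e]
    exact (norm_sub_le _ _).trans (by linarith [hM z hz0])
  rw [norm_mul, Complex.norm_real, Real.norm_of_nonneg (by positivity)] at h2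
  have h3 : 2 * M + 1 ≤ (2 * M + 1) / s * ‖z - p‖ := by
    rw [div_mul_eq_mul_div, le_div_iff₀ hs]
    nlinarith
  linarith

theorem lcurve_near (hω : ω ∈ DD V) (hδ : 0 < δ) (a : ℂ) {v : Pt} (hv : v ∈ V) (t : ℝ) :
    dist ((lcurve δ a ω v).c (t : S1)) (cyc δ a ω v ⌊((comp ω v).ncard : ℝ) * t⌋) ≤ δ := by
  have h1 := poly_near (cyc δ a ω v) ((comp ω v).ncard * t)
  rw [cyc_step hω hδ a hv] at h1
  rw [lcurve_coe]
  exact h1

section

variable {Ω : Set ℂ} {S : TempApprox Ω} {n : ℕ}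

/-- no pinches of the lattice loop: no pinches of its curve -/
theorem curve_pinch (hω : ω ∈ DD (S.T n).V) {v : Pt} (hv : ω.1 v ≠ ω.2 v) {ρ' ρ η : ℝ}
    (hnp : ∀ u ∈ comp ω v, ∀ i, ¬ Pinch S n ω ρ' (4 * η) u i) (h1 : 2 * S.δ n ≤ η)
    (h2 : ρ' + 2 * S.δ n ≤ ρ) (x y : ℝ) (hxy : x ≤ y) (hyx : y ≤ x + 1)
    (hd : dist ((lcurve (S.δ n) (S.a n) ω v).c (x : S1))
      ((lcurve (S.δ n) (S.a n) ω v).c (y : S1)) ≤ 3 * η) :
    (∀ u ∈ Icc x y, dist ((lcurve (S.δ n) (S.a n) ω v).c (u : S1))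
      ((lcurve (S.δ n) (S.a n) ω v).c (x : S1)) ≤ ρ) ∨
    (∀ u ∈ Icc y (x + 1), dist ((lcurve (S.δ n) (S.a n) ω v).c (u : S1))
      ((lcurve (S.δ n) (S.a n) ω v).c (x : S1)) ≤ ρ) := by
  have hδ := S.pos n
  have hvV := mem_V_of_loop hω hv
  set N := (comp ω v).ncard with hN
  have hN0 : 0 < N := ncard_pos hω hvV
  have hNr : (0 : ℝ) < N := by exact_mod_cast hN0
  set i := ⌊(N : ℝ) * x⌋ with hi
  set i' := ⌊(N : ℝ) * y⌋ with hi'
  have hii : i ≤ i' := Int.floor_le_floor (by gcongr)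
  have hiN : i' ≤ i + N := by
    have e : ⌊(N : ℝ) * x + N⌋ = i + N := Int.floor_add_natCast _ _
    rw [← e]
    exact Int.floor_le_floor (by nlinarith)
  obtain ⟨m, hm⟩ := Int.le.dest hii
  have hmN : m ≤ N := by
    have : (m : ℤ) ≤ N := by omega
    exact_mod_cast this
  set w := cycP ω v i with hw
  have hwc : w ∈ comp ω v := cycP_comp ω v i
  have hcw : comp ω w = comp ω v := P155.L.comp_eq_of_mem hω hwc
  have hsuc : (SW.suc ω)^[m] w = cycP ω v i' := by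
    rw [hw, ← cycP_add hω hvV, hm]
  have hx := lcurve_near hω hδ (S.a n) hvV x
  have hy := lcurve_near hω hδ (S.a n) hvV y
  rw [← hN, ← hi] at hx
  rw [← hN, ← hi'] at hy
  have hnear : dist (Q1.pt (S.δ n) (S.a n) w) (Q1.pt (S.δ n) (S.a n) ((SW.suc ω)^[m] w)) ≤
      4 * η := by
    rw [hsuc, hw, ← cyc_eq, ← cyc_eq]
    have h3 := dist_triangle4 (cyc (S.δ n) (S.a n) ω v i)
      ((lcurve (S.δ n) (S.a n) ω v).c (x : S1)) ((lcurve (S.δ n) (S.a n) ω v).c (y : S1))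
      (cyc (S.δ n) (S.a n) ω v i')
    rw [dist_comm (cyc (S.δ n) (S.a n) ω v i) ((lcurve (S.δ n) (S.a n) ω v).c (x : S1))] at h3
    linarith
  have hno := hnp w hwc m
  unfold Pinch at hno
  rw [hcw, ← hN] at hno
  have hor : ¬ Far S n ω ρ' w m ∨ ¬ Far S n ω ρ' ((SW.suc ω)^[m] w) (N - m) := by
    by_contra hcon
    push Not at hcon
    exact hno ⟨hmN, hnear, hcon.1, hcon.2⟩
  rcases hor with hF | hF
  · left
    intro u hu
    unfold Far at hF
    push Not at hF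
    have hu1 : i ≤ ⌊(N : ℝ) * u⌋ := Int.floor_le_floor (by gcongr; exact hu.1)
    have hu2 : ⌊(N : ℝ) * u⌋ ≤ i' := Int.floor_le_floor (by gcongr; exact hu.2)
    obtain ⟨l, hl⟩ := Int.le.dest hu1
    have hlm : l ≤ m := by omega
    have h3 := hF l hlm 0 (Nat.zero_le m)
    rw [Function.iterate_zero, id_eq, hw, ← cycP_add hω hvV, hl, ← cyc_eq, ← cyc_eq] at h3
    have h4 := lcurve_near hω hδ (S.a n) hvV u
    rw [← hN] at h4
    have h5 := dist_triangle4 ((lcurve (S.δ n) (S.a n) ω v).c (u : S1))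
      (cyc (S.δ n) (S.a n) ω v ⌊(N : ℝ) * u⌋) (cyc (S.δ n) (S.a n) ω v i)
      ((lcurve (S.δ n) (S.a n) ω v).c (x : S1))
    rw [dist_comm (cyc (S.δ n) (S.a n) ω v i) ((lcurve (S.δ n) (S.a n) ω v).c (x : S1))] at h5
    linarith
  · right
    intro u hu
    unfold Far at hF
    push Not at hF
    have hu1 : i' ≤ ⌊(N : ℝ) * u⌋ := Int.floor_le_floor (by gcongr; exact hu.1)
    have hu2 : ⌊(N : ℝ) * u⌋ ≤ i + N := by
      have e : ⌊(N : ℝ) * x + N⌋ = i + N := Int.floor_add_natCast _ _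
      rw [← e]
      exact Int.floor_le_floor (by nlinarith [hu.2])
    obtain ⟨l, hl⟩ := Int.le.dest hu1
    have hlm : l ≤ N - m := by omega
    have h3 := hF l hlm (N - m) le_rfl
    have hlast : (SW.suc ω)^[N - m] ((SW.suc ω)^[m] w) = w := by
      rw [← Function.iterate_add_apply, Nat.sub_add_cancel hmN, hw, ← cycP_add hω hvV, hN,
        cycP_per]
    rw [hlast, hsuc, ← cycP_add hω hvV, hl, hw, ← cyc_eq, ← cyc_eq] at h3
    have h4 := lcurve_near hω hδ (S.a n) hvV u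
    rw [← hN] at h4
    have h5 := dist_triangle4 ((lcurve (S.δ n) (S.a n) ω v).c (u : S1))
      (cyc (S.δ n) (S.a n) ω v ⌊(N : ℝ) * u⌋) (cyc (S.δ n) (S.a n) ω v i)
      ((lcurve (S.δ n) (S.a n) ω v).c (x : S1))
    rw [dist_comm (cyc (S.δ n) (S.a n) ω v i) ((lcurve (S.δ n) (S.a n) ω v).c (x : S1))] at h5
    linarith

/-- **The bottleneck**: two points surrounded by a loop without pinches -/
theorem bott_ge (hω : ω ∈ DD (S.T n).V) {v : Pt} (hv : ω.1 v ≠ ω.2 v) {k : ℕ} (hk : 1 ≤ k)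
    (hl : level ω (comp ω v) = k) {z z' : ℂ} {s ρ' η : ℝ}
    (hnp : ∀ u ∈ comp ω v, ∀ i, ¬ Pinch S n ω ρ' (4 * η) u i) (h1 : 4 * S.δ n < η)
    (h8 : 16 * η ≤ s) (h2 : ρ' + 2 * S.δ n < s / 2)
    (hz : surrZ (S.δ n) (S.a n) ω (comp ω v) z) (hz' : surrZ (S.δ n) (S.a n) ω (comp ω v) z')
    (hd : s ≤ infDist z (gasket (S.δ n) (S.a n) (S.T n) k ω))
    (hd' : s ≤ infDist z' (gasket (S.δ n) (S.a n) (S.T n) k ω)) :
    η / 2 ≤ T211Q.bott z z' (gasket (S.δ n) (S.a n) (S.T n) k ω) := by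
  have hδ := S.pos n
  have hη : 0 < η := by linarith
  have hvV := mem_V_of_loop hω hv
  have hL := comp_mem_Loops hv
  set δ := S.δ n with hδd
  set a := S.a n with had
  have hvert : ∀ u ∈ comp ω v, Q1.pt δ a u ∈ gasket δ a (S.T n) k ω := by
    intro u hu
    rw [← hl]
    exact vert_gasket hδ hω hL hu
  have hfz : ∀ u ∈ comp ω v, s ≤ dist z (Q1.pt δ a u) := fun u hu =>
    hd.trans (infDist_le_dist_of_mem (hvert u hu))
  have hfz' : ∀ u ∈ comp ω v, s ≤ dist z' (Q1.pt δ a u) := fun u hu =>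
    hd'.trans (infDist_le_dist_of_mem (hvert u hu))
  have hcz : ∀ w : ℂ, (∀ u ∈ comp ω v, s ≤ dist w (Q1.pt δ a u)) → ∀ t : S1,
      s / 2 ≤ dist ((lcurve δ a ω v).c t) w := by
    intro w hw t
    obtain ⟨t, rfl⟩ := QuotientAddGroup.mk_surjective t
    have h3 := lcurve_near hω hδ a hvV t
    have h4 := hw _ (cycP_comp ω v ⌊((comp ω v).ncard : ℝ) * t⌋)
    rw [← cyc_eq] at h4
    have h5 := dist_triangle w ((lcurve δ a ω v).c (t : S1))
      (cyc δ a ω v ⌊((comp ω v).ncard : ℝ) * t⌋)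
    rw [dist_comm w ((lcurve δ a ω v).c (t : S1))] at h5
    show s / 2 ≤ dist ((lcurve δ a ω v).c (t : S1)) w
    linarith
  have hj := joined_off hδ hω hv hz hz' (fun u hu => by linarith [hfz u hu])
    (fun u hu => by linarith [hfz' u hu])
  have hb := bottleneck (lcurve δ a ω v) (s := s / 2) (ρ := ρ' + 2 * δ) hη (hcz z hfz)
    (hcz z' hfz') hj (fun x y hxy hyx hxyd =>
      curve_pinch hω hv hnp (by linarith) le_rfl x y hxy hyx hxyd) (by linarith) h2
  obtain ⟨γ, hγ⟩ := hb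
  refine T211Q.le_bott γ.toContinuousMap γ.source γ.target fun u => ?_
  change η / 2 ≤ infDist (γ u) _
  -- vertices are far from the path
  have hoff : ∀ t, ∀ w ∈ comp ω v, η < dist (γ t) (Q1.pt δ a w) := by
    intro t w hw
    have h3 := hγ t
    rw [mem_compl_iff, mem_cthickening_iff, not_le] at h3
    have hwr : Q1.pt δ a w ∈ range (lcurve δ a ω v).c := by
      obtain ⟨j, hj⟩ := exists_cycP hω hvV hw
      have hN0 : (0 : ℝ) < (comp ω v).ncard := by exact_mod_cast ncard_pos hω hvV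
      refine ⟨((j / (comp ω v).ncard : ℝ) : S1), ?_⟩
      rw [lcurve_coe, mul_div_cancel₀ _ hN0.ne', poly_int, cyc_eq, hj]
    have h4 : ENNReal.ofReal η < edist (γ t) (Q1.pt δ a w) :=
      h3.trans_le (infEDist_le_edist_of_mem hwr)
    rw [edist_dist] at h4
    exact (ENNReal.ofReal_lt_ofReal_iff_of_nonneg hη.le).1 h4
  -- the path is surrounded by the loop
  have hpath : ∀ t, surrZ δ a ω (comp ω v) (γ t) := by
    intro t
    refine surrZ_conn hδ hω hL (C := range γ) (isPreconnected_range γ.continuous) ?_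
      ⟨0, γ.source⟩ ⟨t, rfl⟩ hz
    rintro _ ⟨t', rfl⟩ w hw
    linarith [hoff t' w hw]
  refine (le_infDist ⟨_, hvert v (P155.L.same_refl ω v)⟩).2 fun p hp => ?_
  by_contra hlt
  push Not at hlt
  -- the segment from the path to `p`
  have hseg : ∀ q ∈ segment ℝ (γ u) p, ∀ w ∈ comp ω v, 2 * δ < dist q (Q1.pt δ a w) := by
    intro q hq w hw
    have h3 : dist (γ u) q ≤ dist (γ u) p := by
      have h5 := dist_add_dist_of_mem_segment hq
      linarith [dist_nonneg (x := q) (y := p)]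
    have h4 := hoff u w hw
    have h5 := dist_triangle (γ u) q (Q1.pt δ a w)
    linarith
  have hp1 : surrZ δ a ω (comp ω v) p :=
    surrZ_conn hδ hω hL (convex_segment (γ u) p).isPreconnected hseg (left_mem_segment ℝ _ _)
      (right_mem_segment ℝ _ _) (hpath u)
  have hp2 := mem_open_poly hδ hω hL hp1 (fun w hw => hseg p (right_mem_segment ℝ _ _) w hw)
  refine hp.2 (interior_mono ?_ hp2)
  unfold region
  refine biUnion_subset_biUnion_left ?_
  rw [KConn.Ok_eq_iUnion hk hω]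
  intro f hf
  rw [Set.mem_iUnion₂]
  exact ⟨comp ω v, ⟨hL, hl⟩, hf⟩

end

end Vale.Agent.P155.EX
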